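import Mathlib

set_option autoImplicit false

namespace Crest.Agent.Egy

/-- sum of reciprocals of a multiset -/
def rsum (l : Multiset ℕ) : ℚ := (l.map (fun n : ℕ => (1 : ℚ) / (n : ℚ))).sum

@[simp] lemma rsum_zero : rsum 0 = 0 := by simp [rsum]
@[simp] lemma rsum_cons (n : ℕ) (l : Multiset ℕ) : rsum (n ::ₘ l) = 1 / (n : ℚ) + rsum l := by
  simp [rsum]
@[simp] lemma rsum_add (l l' : Multiset ℕ) : rsum (l + l') = rsum l + rsum l' := by
  simp [rsum]

lemma rsum_nonneg (l : Multiset ℕ) : 0 ≤ rsum l := by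
  induction l using Multiset.induction_on with
  | empty => simp
  | cons n l ih => rw [rsum_cons]; positivity

/-- `x` is a sum of at most `K` unit fractions (repeats allowed). -/
def Rep (x : ℚ) (K : ℕ) : Prop :=
  ∃ l : Multiset ℕ, l.card ≤ K ∧ (∀ n ∈ l, 1 ≤ n) ∧ rsum l = x

lemma Rep.mono {x : ℚ} {K K' : ℕ} (h : Rep x K) (hK : K ≤ K') : Rep x K' := by
  obtain ⟨l, h1, h2, h3⟩ := h
  exact ⟨l, h1.trans hK, h2, h3⟩

lemma Rep.zero : Rep 0 0 := ⟨0, by simp, by simp, by simp⟩

lemma Rep.add {x y : ℚ} {K K' : ℕ} (h : Rep x K) (h' : Rep y K') : Rep (x + y) (K + K') := by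
  obtain ⟨l, h1, h2, h3⟩ := h
  obtain ⟨l', h1', h2', h3'⟩ := h'
  refine ⟨l + l', by simp; omega, ?_, by simp [h3, h3']⟩
  intro n hn
  rcases Multiset.mem_add.1 hn with h | h
  · exact h2 n h
  · exact h2' n h

lemma Rep.unit {n : ℕ} (hn : 1 ≤ n) : Rep (1 / (n : ℚ)) 1 :=
  ⟨{n}, by simp, by simpa using hn, by simp [rsum]⟩

def Reps (K : ℕ) (x : ℚ) : Set (Multiset ℕ) :=
  {l | l.card = K ∧ (∀ n ∈ l, 1 ≤ n) ∧ rsum l = x}

lemma rsum_le (l : Multiset ℕ) (n : ℕ) (hn : 1 ≤ n) (h : ∀ m ∈ l, n ≤ m) :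
    rsum l ≤ l.card / (n : ℚ) := by
  induction l using Multiset.induction_on with
  | empty => simp
  | cons m l ih =>
    rw [rsum_cons, Multiset.card_cons]
    have h1 := ih (fun m' hm' => h m' (Multiset.mem_cons_of_mem hm'))
    have h2 : n ≤ m := h m (Multiset.mem_cons_self _ _)
    have h3 : (1 : ℚ) / m ≤ 1 / n := by
      apply one_div_le_one_div_of_le
      · exact_mod_cast hn
      · exact_mod_cast h2
    push_cast
    rw [add_div]; linarith

lemma reps_finite (K : ℕ) : ∀ x : ℚ, (Reps K x).Finite := by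
  induction K with
  | zero =>
    intro x
    refine (Set.finite_singleton (0 : Multiset ℕ)).subset ?_
    intro l hl
    simpa using hl.1
  | succ K ih =>
    intro x
    have hfin : (⋃ n ∈ Set.Icc 1 ⌈((K + 1 : ℕ) : ℚ) / x⌉₊,
        (fun l => n ::ₘ l) '' Reps K (x - 1 / (n : ℚ))).Finite :=
      (Set.finite_Icc _ _).biUnion (fun n _ => (ih _).image _)
    refine hfin.subset ?_
    intro l hl
    obtain ⟨h1, h2, h3⟩ := hl
    have hne : l.toFinset.Nonempty := by
      rw [Multiset.toFinset_nonempty]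
      intro h; simp [h] at h1
    obtain ⟨n, hn, hmin⟩ := l.toFinset.exists_min_image id hne
    have hn' : n ∈ l := Multiset.mem_toFinset.1 hn
    have hn1 := h2 n hn'
    have hle := rsum_le l n hn1 (fun m hm => hmin m (Multiset.mem_toFinset.2 hm))
    obtain ⟨l', rfl⟩ := Multiset.exists_cons_of_mem hn'
    have hnq : (0 : ℚ) < n := by exact_mod_cast hn1
    have hx : 0 < x := by
      rw [← h3, rsum_cons]
      have := rsum_nonneg l'
      positivity
    simp only [Set.mem_iUnion, Set.mem_image, exists_prop]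
    refine ⟨n, ⟨hn1, ?_⟩, l', ⟨?_, ?_, ?_⟩, rfl⟩
    · have : (n : ℚ) ≤ ((K + 1 : ℕ) : ℚ) / x := by
        rw [h3, h1, le_div_iff₀ hnq] at hle
        rw [le_div_iff₀ hx]; linarith
      have h4 := this.trans (Nat.le_ceil _)
      exact_mod_cast h4
    · simpa using h1
    · exact fun m hm => h2 m (Multiset.mem_cons_of_mem hm)
    · rw [← h3, rsum_cons]; ring

/-- Takenouchi's lemma. -/
theorem takenouchi {x : ℚ} {K : ℕ} (hx : x < 1) (h : Rep x K) :
    ∃ S : Finset ℕ, (∀ n ∈ S, 2 ≤ n) ∧ S.card ≤ K ∧ ∑ n ∈ S, (1 : ℚ) / (n : ℚ) = x := by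
  obtain ⟨l₀, h1, h2, h3⟩ := h
  have hne : (Reps l₀.card x).Nonempty := ⟨l₀, rfl, h2, h3⟩
  obtain ⟨l, ⟨hc, hpos, hs⟩, hmax⟩ :=
    Set.exists_max_image _ (fun l : Multiset ℕ => l.sum) (reps_finite l₀.card x) hne
  have h2le : ∀ n ∈ l, 2 ≤ n := by
    intro n hn
    by_contra hlt
    have hn1 : n = 1 := by have := hpos n hn; omega
    obtain ⟨l', rfl⟩ := Multiset.exists_cons_of_mem hn
    rw [rsum_cons, hn1] at hs
    have := rsum_nonneg l'
    norm_num at hs
    linarith
  have hnd : l.Nodup := by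
    by_contra hnd
    rw [Multiset.nodup_iff_ne_cons_cons] at hnd
    push Not at hnd
    obtain ⟨n, l', rfl⟩ := hnd
    have hn2 : 2 ≤ n := h2le n (Multiset.mem_cons_self _ _)
    have hl' : ∀ m ∈ l', 1 ≤ m := fun m hm =>
      hpos m (Multiset.mem_cons_of_mem (Multiset.mem_cons_of_mem hm))
    have key : ∀ u w : ℕ, 1 ≤ u → 1 ≤ w → (1 : ℚ) / u + 1 / w = 1 / n + 1 / n →
        u + w ≤ n + n := by
      intro u w hu hw huw
      have hm : u ::ₘ w ::ₘ l' ∈ Reps l₀.card x := by
        refine ⟨by simpa using hc, ?_, ?_⟩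
        · intro m hm
          rcases Multiset.mem_cons.1 hm with rfl | hm
          · exact hu
          rcases Multiset.mem_cons.1 hm with rfl | hm
          · exact hw
          exact hl' m hm
        · rw [← hs]; simp only [rsum_cons]; linarith
      have := hmax _ hm
      simp only [Multiset.sum_cons] at this
      omega
    rcases Nat.even_or_odd' n with ⟨m, rfl | rfl⟩
    · have hm1 : 1 ≤ m := by omega
      by_cases hm : m = 1
      · subst hm
        rw [rsum_cons, rsum_cons] at hs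
        have := rsum_nonneg l'
        norm_num at hs
        linarith
      · have hm2 : 2 ≤ m := by omega
        have hmq : (0 : ℚ) < m := by exact_mod_cast hm1
        have := key (m + 1) (m * (m + 1)) (by omega) (by nlinarith) (by
          push_cast; field_simp; ring)
        nlinarith
    · have hm1 : 1 ≤ m := by omega
      have hmq : (0 : ℚ) < m := by exact_mod_cast hm1
      have := key (m + 1) ((m + 1) * (2 * m + 1)) (by omega) (by nlinarith) (by
          push_cast; field_simp; ring)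
      nlinarith
  refine ⟨⟨l, hnd⟩, h2le, ?_, ?_⟩
  · change l.card ≤ K
    omega
  · rw [← hs]; rfl

end Crest.Agent.Egy
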