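import Crest.Agent.Egy.Digits
import Crest.Agent.Egy.Rep

set_option autoImplicit false

namespace Crest.Agent.Egy

open Crest.Agent.UF

lemma geom_zero {P : ℕ} (hP : 0 < P) {n : ℤ} (hn : ¬ (P : ℤ) ∣ n) :
    ∑ h ∈ Finset.range P, ch n ((h : ℝ) / P) = 0 := by
  have hPr : (P : ℝ) ≠ 0 := by exact_mod_cast hP.ne'
  have h1 : ∀ h ∈ Finset.range P, ch n ((h : ℝ) / P) = e (n / P) ^ h := by
    intro h _
    rw [← e_nat_mul]; simp only [ch]; congr 1; ring
  have h2 : e (n / P) ≠ 1 := by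
    intro h
    unfold e at h
    obtain ⟨k, hk⟩ := Complex.exp_eq_one_iff.1 h
    apply hn
    have h3 : (2 * Real.pi * (n / P) : ℝ) = k * (2 * Real.pi) := by
      have := congrArg Complex.im hk
      simpa using this
    have h4 : (n : ℝ) = P * k := by
      have hpi := Real.pi_pos
      field_simp at h3
      linarith
    exact ⟨k, by exact_mod_cast h4⟩
  have h3 : e (n / P) ^ P = 1 := by
    rw [← e_nat_mul, mul_div_cancel₀ _ hPr, e_int]
  rw [Finset.sum_congr rfl h1, geom_sum_eq h2, h3, sub_self, zero_div]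

lemma exists_S {A : Set ℤ} {G : ℝ → ℂ} (hG : G ∈ TP A) (h0 : G 0 = 1) {P : ℕ} (hP : 0 < P)
    (h : ∑ h ∈ Finset.Ico 1 P, ‖G ((h : ℝ) / P)‖ ^ 2 < 1) (r : ℤ) :
    ∃ a ∈ A, ∃ a' ∈ A, (P : ℤ) ∣ r + (a + a') := by
  by_contra hc
  push Not at hc
  have h1 : ch r * (G * G) ∈ TP {n | ¬ (P : ℤ) ∣ n} := by
    refine TP_mul (A := {r}) (A' := {n | ¬ (P : ℤ) ∣ r + n}) ?_ (ch_mem rfl)
      (TP_mul (fun a ha a' ha' => hc a ha a' ha') hG hG)
    rintro _ rfl a ha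
    exact ha
  have h2 : ∑ h ∈ Finset.range P, (ch r * (G * G)) ((h : ℝ) / P) = 0 := by
    refine TP_ind (p := fun F => ∑ h ∈ Finset.range P, F ((h : ℝ) / P) = 0) (by simp)
      (fun n hn => geom_zero hP hn) (fun F F' _ _ e1 e2 => ?_) (fun c F _ e1 => ?_) h1
    · simp only [Pi.add_apply, Finset.sum_add_distrib, e1, e2, add_zero]
    · simp only [Pi.smul_apply, smul_eq_mul, ← Finset.mul_sum, e1, mul_zero]
  rw [Finset.range_eq_Ico, Finset.sum_eq_sum_Ico_succ_bot hP] at h2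
  simp only [Nat.cast_zero, zero_div, Pi.mul_apply, h0, ch, mul_zero, e_zero, mul_one,
    zero_add] at h2
  have h3 := eq_neg_of_add_eq_zero_left h2
  have h4 := congrArg norm h3
  rw [norm_one, norm_neg] at h4
  have h5 := norm_sum_le (Finset.Ico 1 P)
    (fun h : ℕ => e (r * ((h : ℝ) / P)) * (G ((h : ℝ) / P) * G ((h : ℝ) / P)))
  simp only [norm_mul, norm_e, one_mul, ← sq, norm_pow] at h5
  simp only [← sq] at h4
  linarith

lemma rep_div_sum {N : ℕ} (hN : 0 < N) (l : Multiset ℕ) (hl : ∀ d ∈ l, d ∣ N) :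
    Rep ((l.sum : ℕ) / (N : ℚ)) l.card := by
  induction l using Multiset.induction_on with
  | empty => simpa using Rep.zero
  | cons d l ih =>
    have h1 := ih (fun d' hd' => hl d' (Multiset.mem_cons_of_mem hd'))
    obtain ⟨c, hc⟩ := hl d (Multiset.mem_cons_self _ _)
    have hc0 : 0 < c := Nat.pos_of_mul_pos_left (hc ▸ hN)
    have hd0 : 0 < d := Nat.pos_of_mul_pos_right (hc ▸ hN)
    have h2 := (Rep.unit hc0).add h1
    rw [Multiset.card_cons, add_comm l.card]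
    convert h2 using 1
    rw [Multiset.sum_cons, Nat.cast_add, add_div]
    congr 1
    rw [hc]; push_cast
    have : (d : ℚ) ≠ 0 := by exact_mod_cast hd0.ne'
    field_simp

lemma final_rep {a B n P K D : ℕ} (hB : 1 ≤ B) (hn : 1 ≤ n) (hD : D ∣ B * n)
    (hPB : P + B = a * n) {S : ℤ} (hS : S ∈ SD D K) (h : (P : ℤ) ∣ (B * n : ℕ) + S) :
    Rep ((a : ℚ) / B) (2 + K) := by
  obtain ⟨l, rfl, hl, rfl⟩ := hS
  have h1 : P ∣ B * n + l.sum := by exact_mod_cast h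
  obtain ⟨n', hn'⟩ := h1
  have hBn : 0 < B * n := Nat.mul_pos hB hn
  have hn'0 : 0 < n' := Nat.pos_of_mul_pos_left (show 0 < P * n' by omega)
  have h2 := ((Rep.unit hn).add (Rep.unit hn'0)).add
    (rep_div_sum (N := B * n * n') (Nat.mul_pos hBn hn'0) l
      (fun d hd => ((hl d hd).trans hD).mul_right _))
  convert h2 using 1
  have e1 : (P : ℚ) + B = a * n := by exact_mod_cast hPB
  have e2 : (B : ℚ) * n + (l.sum : ℕ) = P * n' := by exact_mod_cast hn'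
  have hBq : (B : ℚ) ≠ 0 := by exact_mod_cast (show B ≠ 0 by omega)
  have hnq : (n : ℚ) ≠ 0 := by exact_mod_cast (show n ≠ 0 by omega)
  have hn'q : (n' : ℚ) ≠ 0 := by exact_mod_cast hn'0.ne'
  rw [Nat.cast_mul, Nat.cast_mul]
  field_simp
  linear_combination (-(n' : ℚ)) * e1 - e2

lemma count_le {Q L : ℕ} (hc : Nat.Coprime Q L) (c T : ℕ) :
    (((Finset.range T).filter (fun t => Q ∣ c + L * t)).card : ℝ) ≤ T / Q + 1 := by
  have h1 : ((Finset.range T).filter (fun t => Q ∣ c + L * t)).card ≤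
      (Finset.range (T / Q + 1)).card := by
    refine Finset.card_le_card_of_injOn (fun t => t / Q) ?_ ?_
    · intro t ht
      simp only [Finset.coe_filter, Finset.mem_range, Set.mem_ofPred_eq, Finset.coe_range,
        Set.mem_Iio] at ht ⊢
      exact Nat.lt_succ_of_le (Nat.div_le_div_right ht.1.le)
    · intro t ht t' ht' he
      simp only [Finset.coe_filter, Finset.mem_range, Set.mem_ofPred_eq] at ht ht' he
      have h2 : c + L * t ≡ c + L * t' [MOD Q] :=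
        ((Nat.modEq_zero_iff_dvd).2 ht.2).trans ((Nat.modEq_zero_iff_dvd).2 ht'.2).symm
      have h3 : t ≡ t' [MOD Q] := Nat.ModEq.cancel_left_of_coprime hc (Nat.ModEq.add_left_cancel' _ h2)
      rw [← Nat.div_add_mod t Q, ← Nat.div_add_mod t' Q, he, h3]
  rw [Finset.card_range] at h1
  calc _ ≤ ((T / Q + 1 : ℕ) : ℝ) := by exact_mod_cast h1
    _ ≤ _ := by push_cast; gcongr; exact Nat.cast_div_le

/-- admissible denominators -/
def adm (L Pm : ℕ) : Finset ℕ := (Finset.Icc 2 Pm).filter (fun Q => Nat.Coprime Q L)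

lemma averaging {φ : ℝ → ℝ} (h0 : ∀ x, 0 ≤ φ x) {c L T Pm : ℕ} (hT : 0 < T)
    (hpos : ∀ t < T, 0 < c + L * t) (hle : ∀ t < T, c + L * t ≤ Pm)
    (hcop : ∀ t < T, Nat.Coprime (c + L * t) L)
    (h1 : ∑ Q ∈ adm L Pm, AA φ Q / Q ≤ 1 / 4) (h2 : ∑ Q ∈ adm L Pm, AA φ Q ≤ T / 4) :
    ∃ t < T, ∑ h ∈ Finset.Ico 1 (c + L * t), φ ((h : ℝ) / (c + L * t : ℕ)) < 1 := by
  by_contra hc
  push Not at hc
  have e1 : ∀ t ∈ Finset.range T, (1 : ℝ) ≤
      ∑ Q ∈ adm L Pm, if Q ∣ c + L * t then AA φ Q else 0 := by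
    intro t ht
    rw [Finset.mem_range] at ht
    refine (hc t ht).trans ((sum_le_AA h0 (hpos t ht)).trans ?_)
    rw [← Finset.sum_filter]
    refine Finset.sum_le_sum_of_subset_of_nonneg ?_ (fun Q _ _ => AA_nonneg h0 Q)
    intro Q hQ
    simp only [Finset.mem_filter, Nat.mem_divisors, adm, Finset.mem_Icc] at hQ ⊢
    exact ⟨⟨⟨hQ.2, (Nat.le_of_dvd (hpos t ht) hQ.1.1).trans (hle t ht)⟩,
      Nat.Coprime.coprime_dvd_left hQ.1.1 (hcop t ht)⟩, hQ.1.1⟩
  have e2 := Finset.sum_le_sum e1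
  rw [Finset.sum_comm] at e2
  simp only [Finset.sum_const, Finset.card_range, nsmul_eq_mul, mul_one] at e2
  have e3 : ∀ Q ∈ adm L Pm, (∑ t ∈ Finset.range T, if Q ∣ c + L * t then AA φ Q else 0) ≤
      T * (AA φ Q / Q) + AA φ Q := by
    intro Q hQ
    simp only [Finset.mem_filter, adm, Finset.mem_Icc] at hQ
    rw [← Finset.sum_filter, Finset.sum_const, nsmul_eq_mul]
    have := mul_le_mul_of_nonneg_right (count_le hQ.2 c T) (AA_nonneg h0 Q)
    refine this.trans (le_of_eq ?_)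
    ring
  have e4 := e2.trans (Finset.sum_le_sum e3)
  rw [Finset.sum_add_distrib, ← Finset.mul_sum] at e4
  have hTr : (0 : ℝ) < T := by exact_mod_cast hT
  nlinarith

lemma coprime_aux {A W B P s : ℕ} (hAB : Nat.Coprime A B) (hW : W ∣ B)
    (h : P + B = A * (1 + W * s)) : Nat.Coprime P (A * W) := by
  apply Nat.coprime_of_dvd
  intro ℓ hℓ h1 h2
  have hA : ¬ ℓ ∣ A ∨ ¬ ℓ ∣ B := by
    by_contra hc
    push Not at hc
    exact hℓ.one_lt.ne' (Nat.eq_one_of_dvd_coprimes hAB hc.1 hc.2)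
  rcases (Nat.Prime.dvd_mul hℓ).1 h2 with h3 | h3
  · have h4 : ℓ ∣ P + B := h ▸ h3.mul_right _
    have h5 : ℓ ∣ B := (Nat.dvd_add_right h1).1 h4
    tauto
  · have h4 : ℓ ∣ B := h3.trans hW
    have h5 : ℓ ∣ A * (1 + W * s) := h ▸ dvd_add h1 h4
    rcases (Nat.Prime.dvd_mul hℓ).1 h5 with h6 | h6
    · tauto
    · have : ℓ ∣ 1 := (Nat.dvd_add_left (h3.mul_right _)).1 h6
      exact hℓ.one_lt.ne' (Nat.dvd_one.1 this)

lemma dyadic {φ : ℝ → ℝ} (h0 : ∀ x, 0 ≤ φ x) (S : Finset ℕ) {i₀ i₁ : ℕ} {K : ℝ} (hK : 0 ≤ K)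
    (hS : ∀ Q ∈ S, 2 ^ i₀ ≤ Q ∧ Q < 2 ^ i₁)
    (h : ∀ i, i₀ ≤ i → i < i₁ → ∑ Q ∈ S.filter (fun Q => Q ≤ 2 ^ (i + 1)), AA φ Q ≤
      K * P2 (99 / 100 * i)) :
    ∑ Q ∈ S, AA φ Q / Q ≤ 200 * K * P2 (-(i₀ / 100)) := by
  have hmap : ∀ Q ∈ S, Nat.log 2 Q ∈ Finset.Ico i₀ i₁ := by
    intro Q hQ
    obtain ⟨h1, h2⟩ := hS Q hQ
    have hQ0 : Q ≠ 0 := by have : 0 < 2 ^ i₀ := by positivity
                           omega
    exact Finset.mem_Ico.2 ⟨Nat.le_log_of_pow_le (by norm_num) h1,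
      Nat.log_lt_of_lt_pow hQ0 h2⟩
  rw [← Finset.sum_fiberwise_of_maps_to hmap]
  have hr1 : P2 (-(1 / 100)) ≤ 199 / 200 := by
    by_contra hc
    push Not at hc
    have := pow_le_pow_left₀ (by norm_num) hc.le 100
    rw [P2_pow, show (-(1 / 100) * ((100 : ℕ) : ℝ)) = -1 by norm_num, P2_neg_one] at this
    norm_num at this
  have e1 : ∀ i ∈ Finset.Ico i₀ i₁, ∑ Q ∈ S.filter (fun Q => Nat.log 2 Q = i), AA φ Q / Q ≤
      K * P2 (-(1 / 100)) ^ i := by
    intro i hi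
    rw [Finset.mem_Ico] at hi
    have e2 : ∑ Q ∈ S.filter (fun Q => Nat.log 2 Q = i), AA φ Q / Q ≤
        ∑ Q ∈ S.filter (fun Q => Nat.log 2 Q = i), AA φ Q * P2 (-i) := by
      refine Finset.sum_le_sum (fun Q hQ => ?_)
      rw [Finset.mem_filter] at hQ
      have hQ0 : Q ≠ 0 := by
        have : 0 < 2 ^ i₀ := by positivity
        have := (hS Q hQ.1).1
        omega
      have e3 : (2 : ℝ) ^ i ≤ Q := by
        rw [← hQ.2]; exact_mod_cast Nat.pow_log_le_self 2 hQ0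
      rw [← P2_inv, P2_nat, ← div_eq_mul_inv]
      exact div_le_div_of_nonneg_left (AA_nonneg h0 Q) (by positivity) e3
    refine e2.trans ?_
    rw [← Finset.sum_mul]
    have e4 : ∑ Q ∈ S.filter (fun Q => Nat.log 2 Q = i), AA φ Q ≤ K * P2 (99 / 100 * i) := by
      refine le_trans (Finset.sum_le_sum_of_subset_of_nonneg ?_ (fun Q _ _ => AA_nonneg h0 Q))
        (h i hi.1 hi.2)
      intro Q hQ
      rw [Finset.mem_filter] at hQ ⊢
      exact ⟨hQ.1, hQ.2 ▸ (Nat.lt_pow_succ_log_self (by norm_num) Q).le⟩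
    refine (mul_le_mul_of_nonneg_right e4 (P2_pos _).le).trans (le_of_eq ?_)
    rw [P2_pow, mul_assoc, ← P2_add]; congr 2; ring
  refine (Finset.sum_le_sum e1).trans ?_
  rw [← Finset.mul_sum]
  have e5 := geom_sum_Ico_le_of_lt_one (m := i₀) (n := i₁) (P2_pos (-(1 / 100))).le
    (hr1.trans_lt (by norm_num))
  have e6 : P2 (-(1 / 100)) ^ i₀ / (1 - P2 (-(1 / 100))) ≤ 200 * P2 (-(i₀ / 100)) := by
    rw [div_le_iff₀ (by linarith), P2_pow, show -(1 / 100) * (i₀ : ℝ) = -(i₀ / 100) by ring]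
    have := P2_pos (-(i₀ / 100))
    nlinarith
  calc _ ≤ K * (200 * P2 (-(i₀ / 100))) := mul_le_mul_of_nonneg_left (e5.trans e6) hK
    _ = _ := by ring

end Crest.Agent.Egy
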