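import Crest.Agent.Egy.TP

set_option autoImplicit false

namespace Crest.Agent.Egy

open Crest.Agent.UF MeasureTheory

lemma sobolev {φ φ' ψ : ℝ → ℝ} (hd : ∀ x, HasDerivAt φ (φ' x) x) (hφ' : Continuous φ')
    (hψ : Continuous ψ) (hle : ∀ x, |φ' x| ≤ ψ x) {δ : ℝ} (hδ : 0 < δ) (x : ℝ) :
    φ x ≤ ∫ t in x..x + δ, (φ t / δ + ψ t) := by
  have hφ : Continuous φ := continuous_iff_continuousAt.2 (fun x => (hd x).continuousAt)
  have hψ0 : ∀ x, 0 ≤ ψ x := fun x => (abs_nonneg _).trans (hle x)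
  set C := ∫ t in x..x + δ, ψ t with hC
  have h1 : ∀ t ∈ Set.Icc x (x + δ), φ x ≤ φ t + C := by
    intro t ht
    have h2 : ∫ s in x..t, φ' s = φ t - φ x :=
      intervalIntegral.integral_eq_sub_of_hasDerivAt (fun s _ => hd s) (hφ'.intervalIntegrable _ _)
    have h3 : ∫ s in x..t, -φ' s ≤ ∫ s in x..t, ψ s :=
      intervalIntegral.integral_mono_on ht.1 (hφ'.neg.intervalIntegrable _ _)
        (hψ.intervalIntegrable _ _) (fun s _ => (neg_le_abs _).trans (hle s))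
    rw [intervalIntegral.integral_neg] at h3
    have h4 : (∫ s in x..t, ψ s) + ∫ s in t..x + δ, ψ s = C :=
      intervalIntegral.integral_add_adjacent_intervals (hψ.intervalIntegrable _ _)
        (hψ.intervalIntegrable _ _)
    have h5 : 0 ≤ ∫ s in t..x + δ, ψ s :=
      intervalIntegral.integral_nonneg ht.2 (fun s _ => hψ0 s)
    linarith
  have h6 : ∫ _ in x..x + δ, φ x ≤ ∫ t in x..x + δ, (φ t + C) :=
    intervalIntegral.integral_mono_on (by linarith) (continuous_const.intervalIntegrable _ _)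
      ((hφ.add continuous_const).intervalIntegrable _ _) h1
  rw [intervalIntegral.integral_add (hφ.intervalIntegrable _ _)
    (continuous_const.intervalIntegrable _ _)] at h6
  simp only [intervalIntegral.integral_const, add_sub_cancel_left, smul_eq_mul] at h6
  rw [intervalIntegral.integral_add ((hφ.div_const δ).intervalIntegrable _ _)
    (hψ.intervalIntegrable _ _), intervalIntegral.integral_div, ← hC, div_add' _ _ _ hδ.ne',
    le_div_iff₀ hδ]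
  linarith

lemma sum_intervals {ι : Type*} (s : Finset ι) (θ : ι → ℝ) {δ : ℝ} (hδ : 0 < δ)
    (h0 : ∀ i ∈ s, 0 ≤ θ i) (h1 : ∀ i ∈ s, θ i + δ ≤ 1)
    (hsp : ∀ i ∈ s, ∀ j ∈ s, i ≠ j → δ ≤ |θ i - θ j|) {Ψ : ℝ → ℝ} (hΨ : Continuous Ψ)
    (hΨ0 : ∀ x, 0 ≤ Ψ x) : ∑ i ∈ s, ∫ t in θ i..θ i + δ, Ψ t ≤ JJ Ψ := by
  have hint : IntegrableOn Ψ (Set.Ioc 0 1) := (hΨ.intervalIntegrable 0 1).1
  have h2 : ∑ i ∈ s, ∫ t in θ i..θ i + δ, Ψ t = ∫ t in ⋃ i ∈ s, Set.Ioc (θ i) (θ i + δ), Ψ t := by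
    rw [integral_biUnion_finset s (fun i _ => measurableSet_Ioc)]
    · exact Finset.sum_congr rfl (fun i _ => intervalIntegral.integral_of_le (by linarith))
    · intro i hi j hj hij
      have := hsp i hi j hj hij
      simp only [Function.onFun]
      rw [Set.disjoint_left]
      intro t ht ht'
      rcases le_abs.1 this with h | h
      · linarith [ht.1, ht'.2]
      · linarith [ht.2, ht'.1]
    · intro i _
      exact (hΨ.intervalIntegrable _ _).1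
  rw [h2, JJ, intervalIntegral.integral_of_le zero_le_one]
  refine setIntegral_mono_set hint (Filter.Eventually.of_forall hΨ0)
    (Filter.Eventually.of_forall ?_)
  intro t ht
  have ht' : t ∈ ⋃ i ∈ s, Set.Ioc (θ i) (θ i + δ) := ht
  simp only [Set.mem_iUnion, exists_prop] at ht'
  obtain ⟨i, hi, ht⟩ := ht'
  exact ⟨lt_of_le_of_lt (h0 i hi) ht.1, ht.2.trans (h1 i hi)⟩

lemma hasDerivAt_ch (n : ℤ) (x : ℝ) :
    HasDerivAt (ch n) ((2 * Real.pi * Complex.I * n) * ch n x) x := by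
  have h1 : HasDerivAt (fun x : ℝ => (n : ℝ) * x) n x := by
    simpa using (hasDerivAt_id x).const_mul (n : ℝ)
  have h2 := ((hasDerivAt_e (n * x)).scomp x h1)
  refine h2.congr_deriv ?_
  simp only [ch, Complex.real_smul]
  push_cast
  ring

/-- the large sieve inequality (Gallagher's proof) -/
theorem large_sieve {ι : Type*} (s : Finset ι) (θ : ι → ℝ) {δ : ℝ} (hδ : 0 < δ)
    (h0 : ∀ i ∈ s, 0 ≤ θ i) (h1 : ∀ i ∈ s, θ i + δ ≤ 1)
    (hsp : ∀ i ∈ s, ∀ j ∈ s, i ≠ j → δ ≤ |θ i - θ j|) {N : ℕ} (hN : 1 ≤ N) {F : ℝ → ℂ}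
    (hF : F ∈ TP (Set.Icc (-(N : ℤ)) N)) :
    ∑ i ∈ s, ‖F (θ i)‖ ^ 2 ≤ (1 / δ + 13 * N) * JJ (fun t => ‖F t‖ ^ 2) := by
  obtain ⟨r, hr⟩ := TP_coef (s := Finset.Icc (-(N : ℤ)) N) (by simp) hF
  set F' : ℝ → ℂ := ∑ n ∈ Finset.Icc (-(N : ℤ)) N, (r n * (2 * Real.pi * Complex.I * n)) • ch n
    with hF'
  have hFc : Continuous F := TP_cont hF
  have hF'c : Continuous F' := TP_cont (sum_mem_TP (A := Set.univ) (by simp) _)
  have hd : ∀ x, HasDerivAt F (F' x) x := by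
    intro x
    rw [hr, hF', Finset.sum_apply]
    refine HasDerivAt.sum (fun n _ => ?_)
    refine ((hasDerivAt_ch n x).const_smul (r n)).congr_deriv ?_
    simp only [smul_eq_mul, Pi.smul_apply]; ring
  have hNr : (1 : ℝ) ≤ N := by exact_mod_cast hN
  set L : ℝ := 2 * Real.pi * N with hL
  have hLpos : 0 < L := by positivity
  have hJ : JJ (fun t => ‖F' t‖ ^ 2) ≤ L ^ 2 * JJ (fun t => ‖F t‖ ^ 2) := by
    rw [hF', parseval]
    conv_rhs => rw [hr, parseval]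
    rw [Finset.mul_sum]
    refine Finset.sum_le_sum (fun n hn => ?_)
    have h2 : ‖(2 * Real.pi * Complex.I * n : ℂ)‖ ≤ L := by
      simp only [norm_mul, Complex.norm_I, Complex.norm_intCast, Complex.norm_ofNat,
        Complex.norm_real, Real.norm_eq_abs, abs_of_pos Real.pi_pos, mul_one]
      have h3 : |(n : ℝ)| ≤ N := by
        rw [Finset.mem_Icc] at hn
        have : |n| ≤ N := abs_le.2 hn
        exact_mod_cast this
      rw [hL]; gcongr
    rw [norm_mul, mul_pow, mul_comm]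
    gcongr
  have hc1 : Continuous (fun t => ‖F t‖ ^ 2) := by fun_prop
  have hc2 : Continuous (fun t => ‖F' t‖ ^ 2) := by fun_prop
  have hsob := fun x => sobolev (φ := fun t => ‖F t‖ ^ 2) (φ' := fun t => 2 * inner ℝ (F t) (F' t))
    (ψ := fun t => L * ‖F t‖ ^ 2 + L⁻¹ * ‖F' t‖ ^ 2) (fun x => (hd x).norm_sq)
    (by fun_prop) (by fun_prop) (fun x => by
      have h2 := abs_real_inner_le_norm (F x) (F' x)
      rw [abs_mul, abs_two]
      have h3 : 0 ≤ L⁻¹ * (L * ‖F x‖ - ‖F' x‖) ^ 2 := by positivity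
      have h4 : L⁻¹ * (L * ‖F x‖ - ‖F' x‖) ^ 2 =
          L * ‖F x‖ ^ 2 + L⁻¹ * ‖F' x‖ ^ 2 - 2 * (‖F x‖ * ‖F' x‖) := by
        field_simp; ring
      linarith) hδ x
  refine (Finset.sum_le_sum (fun i _ => hsob (θ i))).trans ?_
  refine (sum_intervals s θ hδ h0 h1 hsp (by fun_prop) (fun x => by positivity)).trans ?_
  rw [JJ_add (by fun_prop) (by fun_prop), JJ_add (by fun_prop) (by fun_prop), JJ_const_mul,
    JJ_const_mul]
  have h5 : JJ (fun t => ‖F t‖ ^ 2 / δ) = 1 / δ * JJ (fun t => ‖F t‖ ^ 2) := by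
    rw [← JJ_const_mul]; congr 1; funext t; ring
  have h6 : 0 ≤ JJ (fun t => ‖F t‖ ^ 2) := JJ_nonneg (fun t => by positivity)
  have h7 : L⁻¹ * JJ (fun t => ‖F' t‖ ^ 2) ≤ L * JJ (fun t => ‖F t‖ ^ 2) := by
    calc L⁻¹ * JJ (fun t => ‖F' t‖ ^ 2) ≤ L⁻¹ * (L ^ 2 * JJ (fun t => ‖F t‖ ^ 2)) := by gcongr
      _ = _ := by field_simp
  have h8 : L ≤ 6.5 * N := by
    have := Real.pi_lt_d2
    rw [hL]; nlinarith
  rw [h5]
  nlinarith

/-- reduced residues -/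
def red (Q : ℕ) : Finset ℕ := (Finset.range Q).filter (fun h => Nat.Coprime h Q)

/-- sum over reduced fractions with denominator `Q` -/
noncomputable def AA (φ : ℝ → ℝ) (Q : ℕ) : ℝ := ∑ h ∈ red Q, φ ((h : ℝ) / Q)

lemma AA_mono {φ ψ : ℝ → ℝ} (h : ∀ x, φ x ≤ ψ x) (Q : ℕ) : AA φ Q ≤ AA ψ Q :=
  Finset.sum_le_sum (fun _ _ => h _)

lemma AA_nonneg {φ : ℝ → ℝ} (h : ∀ x, 0 ≤ φ x) (Q : ℕ) : 0 ≤ AA φ Q :=
  Finset.sum_nonneg (fun _ _ => h _)

theorem farey_sieve (S : Finset ℕ) {R : ℕ} (hR : 1 ≤ R) (hS : ∀ Q ∈ S, Q ≤ R) {N : ℕ} (hN : 1 ≤ N)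
    {F : ℝ → ℂ} (hF : F ∈ TP (Set.Icc (-(N : ℤ)) N)) :
    ∑ Q ∈ S, AA (fun t => ‖F t‖ ^ 2) Q ≤ ((R : ℝ) ^ 2 + 13 * N) * JJ (fun t => ‖F t‖ ^ 2) := by
  have hRr : (1 : ℝ) ≤ R := by exact_mod_cast hR
  have := large_sieve (S.sigma (fun Q => red Q)) (fun x => (x.2 : ℝ) / x.1) (δ := 1 / (R : ℝ) ^ 2)
    (by positivity) (fun i _ => by positivity) ?_ ?_ hN hF
  · rw [Finset.sum_sigma, one_div_one_div] at this
    exact this
  · rintro ⟨Q, h⟩ hi
    simp only [Finset.mem_sigma, red, Finset.mem_filter, Finset.mem_range] at hi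
    obtain ⟨hQ, hh, -⟩ := hi
    have h1 : (Q : ℝ) ≤ R := by exact_mod_cast hS Q hQ
    have h2 : (h : ℝ) + 1 ≤ Q := by exact_mod_cast hh
    have hQ0 : (0 : ℝ) < Q := by have : (0 : ℝ) ≤ h := by positivity
                                 linarith
    have h3 : 1 / (R : ℝ) ^ 2 ≤ 1 / Q := one_div_le_one_div_of_le hQ0 (by nlinarith)
    have h4 : (h : ℝ) / Q + 1 / Q ≤ 1 := by rw [← add_div, div_le_one hQ0]; exact h2
    simp only; linarith
  · rintro ⟨Q, h⟩ hi ⟨Q', h'⟩ hj hij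
    simp only [Finset.mem_sigma, red, Finset.mem_filter, Finset.mem_range] at hi hj
    obtain ⟨hQ, hh, hc⟩ := hi
    obtain ⟨hQ', hh', hc'⟩ := hj
    have hne : h * Q' ≠ h' * Q := by
      intro he
      have d1 : Q ∣ Q' := hc.symm.dvd_of_dvd_mul_left ⟨h', by rw [he]; ring⟩
      have d2 : Q' ∣ Q := hc'.symm.dvd_of_dvd_mul_left ⟨h, by rw [← he]; ring⟩
      have hQQ := Nat.dvd_antisymm d1 d2
      subst hQQ
      have := Nat.eq_of_mul_eq_mul_right (by omega) he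
      subst this
      exact hij rfl
    have h1 : (Q : ℝ) ≤ R := by exact_mod_cast hS Q hQ
    have h1' : (Q' : ℝ) ≤ R := by exact_mod_cast hS Q' hQ'
    have hQ0 : (0 : ℝ) < Q := by exact_mod_cast (show 0 < Q by omega)
    have hQ0' : (0 : ℝ) < Q' := by exact_mod_cast (show 0 < Q' by omega)
    have h2 : (1 : ℝ) ≤ |(h : ℝ) * Q' - h' * Q| := by
      have : (1 : ℤ) ≤ |(h : ℤ) * Q' - h' * Q| := by
        apply Int.one_le_abs
        intro he
        apply hne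
        have : (h : ℤ) * Q' = h' * Q := by linarith
        exact_mod_cast this
      exact_mod_cast this
    simp only
    rw [div_sub_div _ _ hQ0.ne' hQ0'.ne', abs_div, abs_of_pos (mul_pos hQ0 hQ0'), mul_comm (Q : ℝ) h']
    calc 1 / (R : ℝ) ^ 2 ≤ 1 / (Q * Q') :=
          one_div_le_one_div_of_le (mul_pos hQ0 hQ0') (by nlinarith)
      _ ≤ _ := by gcongr

lemma AA_dil {φ : ℝ → ℝ} (h0 : ∀ x, 0 ≤ φ x) (hper : ∀ x (k : ℤ), φ (x + k) = φ x) {p Q : ℕ}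
    (hp : Nat.Coprime p Q) : AA (fun t => φ (p * t)) Q ≤ AA φ Q := by
  unfold AA
  rcases Nat.eq_zero_or_pos Q with rfl | hQ
  · simp [red]
  have h1 : ∀ h ∈ red Q, φ (p * ((h : ℝ) / Q)) = φ (((p * h % Q : ℕ) : ℝ) / Q) := by
    intro h _
    rw [← hper (((p * h % Q : ℕ) : ℝ) / Q) ((p * h / Q : ℕ) : ℤ)]
    congr 1
    have h2 : ((Q * (p * h / Q) + p * h % Q : ℕ) : ℝ) = ((p * h : ℕ) : ℝ) := by
      rw [Nat.div_add_mod]
    have hQr : (Q : ℝ) ≠ 0 := by exact_mod_cast hQ.ne'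
    rw [Int.cast_natCast]
    push_cast at h2
    field_simp
    linarith
  rw [Finset.sum_congr rfl h1, ← Finset.sum_image (f := fun h : ℕ => φ ((h : ℝ) / Q))
    (g := fun h => p * h % Q)]
  · refine Finset.sum_le_sum_of_subset_of_nonneg ?_ (fun _ _ _ => h0 _)
    intro x hx
    obtain ⟨h, hh, rfl⟩ := Finset.mem_image.1 hx
    simp only [red, Finset.mem_filter, Finset.mem_range] at hh ⊢
    refine ⟨Nat.mod_lt _ hQ, ?_⟩
    rw [Nat.Coprime, ← Nat.gcd_rec, Nat.gcd_comm]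
    exact Nat.Coprime.mul_left hp hh.2
  · intro h hh h' hh' he
    simp only [red, Finset.coe_filter, Finset.mem_range, Set.mem_ofPred_eq] at hh hh'
    have : h ≡ h' [MOD Q] := Nat.ModEq.cancel_left_of_coprime hp.symm he
    exact Nat.ModEq.eq_of_lt_of_lt this hh.1 hh'.1

lemma sum_le_AA {φ : ℝ → ℝ} (h0 : ∀ x, 0 ≤ φ x) {P : ℕ} (hP : 0 < P) :
    ∑ h ∈ Finset.Ico 1 P, φ ((h : ℝ) / P) ≤ ∑ Q ∈ P.divisors.filter (1 < ·), AA φ Q := by
  unfold AA
  rw [Finset.sum_sigma']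
  have h1 : ∀ h ∈ Finset.Ico 1 P, φ ((h : ℝ) / P) =
      φ (((h / Nat.gcd h P : ℕ) : ℝ) / (P / Nat.gcd h P : ℕ)) := by
    intro h _
    have hg : 0 < Nat.gcd h P := Nat.gcd_pos_of_pos_right _ hP
    have hgq : (Nat.gcd h P : ℝ) ≠ 0 := by exact_mod_cast hg.ne'
    rw [Nat.cast_div (Nat.gcd_dvd_left _ _) hgq, Nat.cast_div (Nat.gcd_dvd_right _ _) hgq]
    have hPq : (P : ℝ) ≠ 0 := by exact_mod_cast hP.ne'
    congr 1
    field_simp
  rw [Finset.sum_congr rfl h1, ← Finset.sum_image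
    (f := fun x : (Σ _ : ℕ, ℕ) => φ ((x.2 : ℝ) / x.1))
    (g := fun h => (⟨P / Nat.gcd h P, h / Nat.gcd h P⟩ : Σ _ : ℕ, ℕ))]
  · refine Finset.sum_le_sum_of_subset_of_nonneg ?_ (fun _ _ _ => h0 _)
    intro x hx
    obtain ⟨h, hh, rfl⟩ := Finset.mem_image.1 hx
    rw [Finset.mem_Ico] at hh
    have hg : 0 < Nat.gcd h P := Nat.gcd_pos_of_pos_right _ hP
    have hlt : h / Nat.gcd h P < P / Nat.gcd h P :=
      Nat.div_lt_div_of_lt_of_dvd (Nat.gcd_dvd_right _ _) hh.2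
    have hpos : 0 < h / Nat.gcd h P := Nat.div_pos (Nat.gcd_le_left _ hh.1) hg
    simp only [Finset.mem_sigma, Finset.mem_filter, Nat.mem_divisors, red, Finset.mem_range]
    exact ⟨⟨⟨Nat.div_dvd_of_dvd (Nat.gcd_dvd_right _ _), hP.ne'⟩, by omega⟩, hlt,
      Nat.coprime_div_gcd_div_gcd hg⟩
  · intro h _ h' _ he
    simp only [Sigma.mk.injEq, heq_eq_eq] at he
    have e1 := Nat.div_mul_cancel (Nat.gcd_dvd_left h P)
    have e2 := Nat.div_mul_cancel (Nat.gcd_dvd_left h' P)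
    have e3 := Nat.div_mul_cancel (Nat.gcd_dvd_right h P)
    have e4 := Nat.div_mul_cancel (Nat.gcd_dvd_right h' P)
    have hg : Nat.gcd h P = Nat.gcd h' P := by
      have hpos : 0 < P / Nat.gcd h P :=
        Nat.div_pos (Nat.gcd_le_right _ hP) (Nat.gcd_pos_of_pos_right _ hP)
      apply Nat.eq_of_mul_eq_mul_left hpos
      rw [e3, he.1, e4]
    rw [← e1, ← e2, he.2, hg]

end Crest.Agent.Egy
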