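import Crest.Agent.Egy.Step
import Crest.Agent.Egy.Sieve

set_option autoImplicit false

namespace Crest.Agent.Egy

open Crest.Agent.UF

/-- real powers of two -/
noncomputable def P2 (x : ℝ) : ℝ := (2 : ℝ) ^ x

lemma P2_pos (x : ℝ) : 0 < P2 x := Real.rpow_pos_of_pos two_pos x
lemma P2_add (x y : ℝ) : P2 (x + y) = P2 x * P2 y := Real.rpow_add two_pos x y
lemma P2_le {x y : ℝ} (h : x ≤ y) : P2 x ≤ P2 y :=
  Real.rpow_le_rpow_of_exponent_le one_le_two h
lemma P2_pow (x : ℝ) (n : ℕ) : P2 x ^ n = P2 (x * n) := by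
  unfold P2; rw [← Real.rpow_natCast, ← Real.rpow_mul zero_le_two]
lemma P2_nat (n : ℕ) : P2 n = 2 ^ n := Real.rpow_natCast 2 n
lemma P2_inv (x : ℝ) : (P2 x)⁻¹ = P2 (-x) := (Real.rpow_neg zero_le_two x).symm
lemma P2_zero : P2 0 = 1 := Real.rpow_zero 2
lemma P2_one : P2 1 = 2 := Real.rpow_one 2
lemma P2_neg_one : P2 (-1) = 1 / 2 := by rw [← P2_inv, P2_one]; norm_num
lemma P2_succ (x : ℝ) : P2 (x + 1) = 2 * P2 x := by rw [P2_add, P2_one, mul_comm]

lemma pi_two_pow {n : ℕ} (hn : 1 ≤ n) : 2 ^ n ≤ n * Nat.primeCounting (2 ^ n) + n + 1 := by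
  have h := Chebyshev.pi_ge (2 ^ n)
  have hl2 : 0 < Real.log 2 := Real.log_pos one_lt_two
  have hnr : (0 : ℝ) < n := by exact_mod_cast hn
  push_cast at h
  rw [Real.log_pow, div_le_iff₀ (by positivity)] at h
  have h1 : Real.log (2 ^ n + 1) ≤ (n + 1) * Real.log 2 := by
    have : ((n : ℝ) + 1) * Real.log 2 = Real.log (2 ^ (n + 1)) := by
      rw [Real.log_pow]; push_cast; ring
    rw [this]
    apply Real.log_le_log (by positivity)
    rw [pow_succ]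
    have : (1 : ℝ) ≤ 2 ^ n := one_le_pow₀ one_le_two
    linarith
  have h2 : (2 : ℝ) ^ n * Real.log 2 ≤ (n * Nat.primeCounting (2 ^ n) + n + 1) * Real.log 2 := by
    nlinarith
  exact_mod_cast le_of_mul_le_mul_right h2 hl2

lemma card_primesLE (y : ℕ) :
    ((Finset.range (y + 1)).filter Nat.Prime).card = Nat.primeCounting y := by
  rw [Nat.primeCounting, Nat.primeCounting', Nat.count_eq_card_filter_range]

lemma lin_le_two_pow {v : ℕ} (hv : 12 ≤ v) : 100 * v ≤ 2 ^ v := by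
  induction v, hv using Nat.le_induction with
  | base => norm_num
  | succ v hv ih => rw [pow_succ]; omega

lemma pool_card {v : ℕ} (hv : 12 ≤ v) :
    2 ^ (39 * v) + 2 + 10 * 2 ^ v ≤ Nat.primeCounting (2 ^ (40 * v)) := by
  have h1 := pi_two_pow (n := 40 * v) (by omega)
  have h2 := lin_le_two_pow hv
  have h3 : 2 ^ (40 * v) = 2 ^ v * 2 ^ (39 * v) := by rw [← pow_add]; congr 1; ring
  have h4 : 2 ^ v * 2 ^ v ≤ 2 ^ (39 * v) := by
    rw [← pow_add]; exact Nat.pow_le_pow_right (by norm_num) (by omega)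
  by_contra hlt
  push Not at hlt
  set A := 2 ^ (39 * v)
  set q := 2 ^ v
  set Pi := Nat.primeCounting (2 ^ (40 * v))
  have h5 : Pi ≤ 2 * A := by nlinarith
  have h6 : 40 * v * Pi ≤ 40 * v * (2 * A) := Nat.mul_le_mul_left _ h5
  have h7 : 100 * v * A ≤ q * A := Nat.mul_le_mul_right _ h2
  have h8 : 100 ≤ A := by nlinarith
  nlinarith

/-- the moment bound after `j` steps -/
noncomputable def tau (v j : ℕ) : ℝ := P2 (-(32 * v * ((j - 40 * v : ℕ) : ℝ)))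

/-- divisors of `Λ` below `N` -/
def Dv (Λ N : ℕ) : Set ℤ := {d | ∃ d' : ℕ, d = d' ∧ d' ∣ Λ ∧ d' ≤ N}

lemma Dv_sub (Λ N : ℕ) : Dv Λ N ⊆ Set.Icc 0 N := by
  rintro _ ⟨d, rfl, -, h⟩
  exact ⟨by positivity, by exact_mod_cast h⟩

lemma chain_step {v j : ℕ} (hv : 12 ≤ v) (hj : v + 40 * v * j ≤ 2 ^ v) {D Λ : ℕ} (hD : 1 ≤ D)
    (hD' : D ≤ 2 ^ (10 * 2 ^ v)) {f : ℝ → ℂ} (hf : f ∈ TP (Dv Λ (2 ^ (40 * v * j))))
    (h1 : ∀ θ, ‖f θ‖ ≤ 1) (h2 : JJ (fun θ => ‖f θ‖ ^ 2) ≤ P2 (-j))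
    (hM : JJ (fun θ => ‖f θ‖ ^ (160 * v)) ≤ tau v j) :
    ∃ p p' : ℕ, p.Prime ∧ p'.Prime ∧ p ≠ p' ∧ p ≤ 2 ^ (40 * v) ∧ p' ≤ 2 ^ (40 * v) ∧
      ¬ p ∣ D ∧ ¬ p' ∣ D ∧
      JJ (fun θ => ‖(f (p * θ) + f (p' * θ)) / 2‖ ^ (160 * v)) ≤ tau v (j + 1) := by
  have hfc := TP_cont hf
  set pool := ((Finset.range (2 ^ (40 * v) + 1)).filter Nat.Prime) \ D.primeFactors with hpool
  have hcard : 2 ^ (39 * v) + 2 ≤ pool.card := by
    have e1 := Finset.le_card_sdiff D.primeFactors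
      ((Finset.range (2 ^ (40 * v) + 1)).filter Nat.Prime)
    have e2 := card_primeFactors_le (by omega) hD'
    have e3 := pool_card hv
    rw [card_primesLE, ← hpool] at e1
    omega
  have hmem : ∀ p ∈ pool, p.Prime ∧ p ≤ 2 ^ (40 * v) ∧ ¬ p ∣ D := by
    intro p hp
    simp only [hpool, Finset.mem_sdiff, Finset.mem_filter, Finset.mem_range,
      Nat.mem_primeFactors] at hp
    exact ⟨hp.1.2, by omega, fun h => hp.2 ⟨hp.1.2, h, by omega⟩⟩
  have hvr : (12 : ℝ) ≤ v := by exact_mod_cast hv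
  obtain ⟨p, hp, p', hp', hne, hb⟩ := step (k := 40 * v) (b := 2 ^ v) (X := 2 ^ (39 * v))
    (ρ := P2 (-(38 * v))) (τ := tau v j) (r₀ := JJ (fun θ => ‖f θ‖ ^ (2 * (40 * v))))
    (TP_mono (Dv_sub _ _) hf) pool (fun p hp => (hmem p hp).1) (by
      calc 40 * v * 2 ^ (40 * v * j) ≤ 2 ^ v * 2 ^ (40 * v * j) :=
            Nat.mul_le_mul_right _ (by have := lin_le_two_pow hv; omega)
        _ = 2 ^ (v + 40 * v * j) := by rw [pow_add]
        _ ≤ 2 ^ 2 ^ v := Nat.pow_le_pow_right (by norm_num) hj)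
    (P2_pos _) (P2_pos _) (by
      push_cast
      rw [← P2_nat, ← P2_nat, ← P2_add]
      apply P2_le; push_cast; linarith) hcard
    (by rw [show 4 * (40 * v) = 160 * v by ring]; exact hM) le_rfl
  refine ⟨p, p', (hmem p hp).1, (hmem p' hp').1, hne, (hmem p hp).2.1, (hmem p' hp').2.1,
    (hmem p hp).2.2, (hmem p' hp').2.2, ?_⟩
  rcases lt_or_ge j (40 * v) with hj0 | hj0
  · have : tau v (j + 1) = 1 := by
      rw [tau, show j + 1 - 40 * v = 0 by omega]; simp [P2_zero]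
    rw [this, ← JJ_const 1]
    refine JJ_mono (by fun_prop) (by fun_prop) (fun θ => pow_le_one₀ (norm_nonneg _) ?_)
    rw [norm_div, Complex.norm_ofNat]
    have := norm_add_le (f (p * θ)) (f (p' * θ))
    linarith [h1 (p * θ), h1 (p' * θ)]
  · obtain ⟨i, rfl⟩ := Nat.exists_eq_add_of_le hj0
    rw [show 4 * (40 * v) = 160 * v by ring] at hb
    refine hb.trans ?_
    have ht : tau v (40 * v + i) = P2 (-(32 * v * i)) := by
      rw [tau, show 40 * v + i - 40 * v = i by omega]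
    have ht' : tau v (40 * v + i + 1) = P2 (-(32 * v * i) - 32 * v) := by
      rw [tau, show 40 * v + i + 1 - 40 * v = i + 1 by omega]; congr 1; push_cast; ring
    obtain ⟨k, hk⟩ : ∃ k, 2 * (40 * v) = k + 2 := ⟨80 * v - 2, by omega⟩
    have hkr : (k : ℝ) = 80 * v - 2 := by
      have : ((2 * (40 * v) : ℕ) : ℝ) = ((k + 2 : ℕ) : ℝ) := by rw [hk]
      push_cast at this; linarith
    have hi0 : (0 : ℝ) ≤ i := by positivity
    have hr : JJ (fun θ => ‖f θ‖ ^ (2 * (40 * v))) ≤ P2 (-(19 * v) - 16 * v * i) := by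
      rw [hk]
      refine (JJ_interp hfc (P2_pos (1 / 4 - i / 5)) k).trans ?_
      rw [← hk, show 2 * (2 * (40 * v)) = 160 * v by ring]
      have e1 : P2 (1 / 4 - i / 5) ^ k * JJ (fun θ => ‖f θ‖ ^ 2) ≤
          P2 (-(19 * v) - 16 * v * i - 1) := by
        refine (mul_le_mul_of_nonneg_left h2 (pow_nonneg (P2_pos _).le _)).trans ?_
        rw [P2_pow, ← P2_add]
        apply P2_le; rw [hkr]; push_cast; nlinarith
      have e2 : (P2 (1 / 4 - i / 5) ^ (2 * (40 * v)))⁻¹ * JJ (fun θ => ‖f θ‖ ^ (160 * v)) ≤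
          P2 (-(19 * v) - 16 * v * i - 1) := by
        refine (mul_le_mul_of_nonneg_left hM
          (inv_nonneg.2 (pow_nonneg (P2_pos _).le _))).trans ?_
        rw [P2_pow, P2_inv, ht, ← P2_add]
        apply P2_le; push_cast; nlinarith
      have e3 := P2_succ (-(19 * v) - 16 * v * i - 1)
      rw [sub_add_cancel] at e3
      linarith
    have hr2 : JJ (fun θ => ‖f θ‖ ^ (2 * (40 * v))) ^ 2 ≤ P2 (-(38 * v) - 32 * v * i) := by
      refine (pow_le_pow_left₀ (JJ_nonneg (fun θ => by positivity)) hr 2).trans ?_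
      rw [P2_pow]; apply P2_le; push_cast; linarith
    have e1 : ((25 : ℝ) / 36) ^ (2 * (40 * v)) ≤ P2 (-(40 * v)) := by
      rw [pow_mul]
      refine (pow_le_pow_left₀ (by positivity) (show _ ≤ P2 (-1) by
        rw [P2_neg_one]; norm_num) _).trans ?_
      rw [P2_pow]; apply P2_le; push_cast; linarith
    have e2 : ((25 : ℝ) / 24) ^ (2 * (40 * v)) ≤ P2 (5 * v) := by
      rw [show 2 * (40 * v) = 16 * (5 * v) by ring, pow_mul]
      refine (pow_le_pow_left₀ (by positivity) (show _ ≤ P2 1 by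
        rw [P2_one]; norm_num) _).trans ?_
      rw [P2_pow]; apply P2_le; push_cast; linarith
    rw [ht, ht', ← P2_add]
    have e3 : 2 * ((25 : ℝ) / 36) ^ (2 * (40 * v)) * P2 (-(32 * v * i)) ≤
        P2 (-(32 * v * i) - 32 * v - 1) := by
      calc _ ≤ 2 * P2 (-(40 * v)) * P2 (-(32 * v * i)) := by
            have := P2_pos (-(32 * v * i)); gcongr
        _ ≤ _ := by rw [← P2_succ, ← P2_add]; apply P2_le; linarith
    have e4 : ((25 : ℝ) / 24) ^ (2 * (40 * v)) * (JJ (fun θ => ‖f θ‖ ^ (2 * (40 * v))) ^ 2 +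
        P2 (-(38 * v) + -(32 * v * i))) ≤ P2 (-(32 * v * i) - 32 * v - 1) := by
      calc _ ≤ P2 (5 * v) * (P2 (-(38 * v) - 32 * v * i) + P2 (-(38 * v) + -(32 * v * i))) := by
            have := P2_pos (-(38 * v) + -(32 * v * i)); have := P2_pos (5 * v); gcongr
        _ = P2 (5 * v) * P2 (-(38 * v) - 32 * v * i + 1) := by
            rw [P2_succ, ← sub_eq_add_neg]; ring
        _ ≤ _ := by rw [← P2_add]; apply P2_le; linarith
    have e5 := P2_succ (-(32 * v * i) - 32 * v - 1)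
    rw [sub_add_cancel] at e5
    linarith

lemma avg_pow_le {a b : ℝ} (ha : 0 ≤ a) (hb : 0 ≤ b) (n : ℕ) :
    ((a + b) / 2) ^ n ≤ (a ^ n + b ^ n) / 2 := by
  have := (convexOn_pow (𝕜 := ℝ) n).2 (Set.mem_Ici.2 ha) (Set.mem_Ici.2 hb)
    (show (0 : ℝ) ≤ 1 / 2 by norm_num) (show (0 : ℝ) ≤ 1 / 2 by norm_num) (by norm_num)
  simp only [smul_eq_mul] at this
  rw [show (a + b) / 2 = 1 / 2 * a + 1 / 2 * b by ring]
  linarith

theorem chain {v B : ℕ} (hv : 12 ≤ v) (hB : 1 ≤ B) (hB' : B ≤ 2 ^ (8 * 2 ^ v)) (J : ℕ)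
    (hJ : v + 40 * v * J ≤ 2 ^ v) :
    ∃ (Λ : ℕ) (F : ℝ → ℂ), 1 ≤ Λ ∧ Λ ≤ 2 ^ (80 * v * J) ∧ Nat.Coprime Λ B ∧
      F ∈ TP (Dv Λ (2 ^ (40 * v * J))) ∧ F 0 = 1 ∧ (∀ θ, ‖F θ‖ ≤ 1) ∧
      JJ (fun θ => ‖F θ‖ ^ 2) ≤ P2 (-J) ∧ JJ (fun θ => ‖F θ‖ ^ (160 * v)) ≤ tau v J ∧
      ∀ j ≤ J, ∃ H ∈ TP (Set.Icc 0 ((2 ^ (40 * v * j) : ℕ) : ℤ)),
        JJ (fun θ => ‖H θ‖ ^ (160 * v)) ≤ tau v j ∧ ∀ Q, Nat.Coprime Λ Q →
          AA (fun θ => ‖F θ‖ ^ (160 * v)) Q ≤ AA (fun θ => ‖H θ‖ ^ (160 * v)) Q := by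
  induction J with
  | zero =>
    have h1 : ch 1 ∈ TP (Dv 1 (2 ^ (40 * v * 0))) := ch_mem ⟨1, by simp⟩
    have h2 : JJ (fun θ => ‖ch 1 θ‖ ^ (160 * v)) ≤ tau v 0 := by
      simp [norm_ch, JJ_const, tau, P2_zero]
    refine ⟨1, ch 1, le_rfl, by simp, by simp, h1, by simp [ch, e_zero],
      fun θ => (norm_ch _ _).le, by simp [norm_ch, JJ_const, P2_zero], h2, ?_⟩
    intro j hj
    obtain rfl : j = 0 := by omega
    exact ⟨ch 1, TP_mono (Dv_sub _ _) h1, h2, fun Q _ => le_rfl⟩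
  | succ J ih =>
    have hJ' : v + 40 * v * J ≤ 2 ^ v := by nlinarith
    obtain ⟨Λ, f, hΛ1, hΛ2, hΛB, hf, hf0, hf1, hf2, hfM, hfA⟩ := ih hJ'
    have hfc := TP_cont hf
    obtain ⟨p, p', hp, hp', hne, hpy, hpy', hpD, hpD', hM⟩ := chain_step (D := B * Λ) hv hJ'
      (Nat.mul_pos hB hΛ1) (by
        calc B * Λ ≤ 2 ^ (8 * 2 ^ v) * 2 ^ (80 * v * J) := Nat.mul_le_mul hB' hΛ2
          _ = 2 ^ (8 * 2 ^ v + 80 * v * J) := by rw [pow_add]
          _ ≤ _ := Nat.pow_le_pow_right (by norm_num) (by nlinarith)) hf hf1 hf2 hfM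
    have hF : (fun θ => (f (p * θ) + f (p' * θ)) / 2) ∈
        TP (Dv (Λ * (p * p')) (2 ^ (40 * v * (J + 1)))) := by
      have key : ∀ r r' : ℕ, r ≤ 2 ^ (40 * v) → r * r' = p * p' → (fun θ => f (r * θ)) ∈
          TP (Dv (Λ * (p * p')) (2 ^ (40 * v * (J + 1)))) := by
        intro r r' hr hrr
        refine TP_dil r ?_ hf
        rintro _ ⟨d, rfl, hd1, hd2⟩
        refine ⟨r * d, by push_cast; rfl, ?_, ?_⟩
        · rw [← hrr, mul_comm r d]
          exact Nat.mul_dvd_mul hd1 (Dvd.intro _ rfl)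
        · rw [mul_add, mul_one, add_comm, pow_add]
          exact Nat.mul_le_mul hr hd2
      have := Submodule.smul_mem _ (1 / 2 : ℂ)
        (add_mem (key p p' hpy rfl) (key p' p hpy' (mul_comm _ _)))
      convert this using 1
      funext θ; simp; ring
    have hF1 : ∀ θ : ℝ, ‖(f (p * θ) + f (p' * θ)) / 2‖ ≤ (‖f (p * θ)‖ + ‖f (p' * θ)‖) / 2 := by
      intro θ
      rw [norm_div, Complex.norm_ofNat]
      gcongr
      exact norm_add_le _ _
    refine ⟨Λ * (p * p'), fun θ => (f (p * θ) + f (p' * θ)) / 2,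
      Nat.mul_pos hΛ1 (Nat.mul_pos hp.pos hp'.pos), ?_, ?_, hF, by simp [hf0], ?_, ?_, hM, ?_⟩
    · calc Λ * (p * p') ≤ 2 ^ (80 * v * J) * (2 ^ (40 * v) * 2 ^ (40 * v)) :=
            Nat.mul_le_mul hΛ2 (Nat.mul_le_mul hpy hpy')
        _ = _ := by rw [← pow_add, ← pow_add]; congr 1; ring
    · refine Nat.Coprime.mul_left hΛB (Nat.Coprime.mul_left ?_ ?_)
      · exact (Nat.Prime.coprime_iff_not_dvd hp).2 (fun h => hpD (h.mul_right _))
      · exact (Nat.Prime.coprime_iff_not_dvd hp').2 (fun h => hpD' (h.mul_right _))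
    · intro θ
      linarith [hF1 θ, hf1 (p * θ), hf1 (p' * θ)]
    · rw [JJ_avg_sq hf hp.ne_zero hp'.ne_zero]
      · have := P2_succ (-((J + 1 : ℕ) : ℝ))
        rw [show -((J + 1 : ℕ) : ℝ) + 1 = -J by push_cast; ring] at this
        linarith
      · rintro _ ⟨d, rfl, -, -⟩ _ ⟨d', rfl, hd', -⟩ he
        have he' : p * d = p' * d' := by exact_mod_cast he
        have : p ∣ p' * d' := ⟨d, he'.symm⟩
        rcases (Nat.Prime.dvd_mul hp).1 this with h | h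
        · exact hne ((Nat.prime_dvd_prime_iff_eq hp hp').1 h)
        · exact hpD ((h.trans hd').mul_left _)
    · intro j hj
      rcases Nat.lt_or_ge J j with hlt | hle
      · obtain rfl : j = J + 1 := by omega
        exact ⟨_, TP_mono (Dv_sub _ _) hF, hM, fun Q _ => le_rfl⟩
      · obtain ⟨H, hH, hHM, hHA⟩ := hfA j hle
        refine ⟨H, hH, hHM, fun Q hQ => le_trans ?_ (hHA Q (Nat.Coprime.coprime_mul_right hQ))⟩
        have hQ' := Nat.Coprime.coprime_mul_left hQ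
        have hper : ∀ (x : ℝ) (k : ℤ), ‖f (x + k)‖ ^ (160 * v) = ‖f x‖ ^ (160 * v) := by
          intro x k; rw [TP_per hf]
        have a1 := AA_dil (φ := fun θ => ‖f θ‖ ^ (160 * v)) (fun x => by positivity) hper
          (Nat.Coprime.coprime_mul_right hQ')
        have a2 := AA_dil (φ := fun θ => ‖f θ‖ ^ (160 * v)) (fun x => by positivity) hper
          (Nat.Coprime.coprime_mul_left hQ')
        have a3 : AA (fun θ => ‖(f (p * θ) + f (p' * θ)) / 2‖ ^ (160 * v)) Q ≤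
            AA (fun θ => (‖f (p * θ)‖ ^ (160 * v) + ‖f (p' * θ)‖ ^ (160 * v)) / 2) Q := by
          refine AA_mono (fun θ => ?_) Q
          refine (pow_le_pow_left₀ (norm_nonneg _) (hF1 θ) _).trans ?_
          exact avg_pow_le (norm_nonneg _) (norm_nonneg _) _
        refine a3.trans ?_
        unfold AA at a1 a2 ⊢
        simp only [← Finset.sum_div, Finset.sum_add_distrib]
        linarith

end Crest.Agent.Egy
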