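import Crest.Agent.Egy.Rep

set_option autoImplicit false

namespace Crest.Agent.Egy

/-- The analytic core of the proof. -/
def Core (C u₀ : ℕ) : Prop :=
  ∀ (u c a B : ℕ) (m : ℕ → ℕ), u₀ ≤ u → 2 ^ (10 * u + 1) ≤ c → c < 2 ^ (10 * u + 11) →
    1 ≤ a → a ≤ 2 ^ c → Nat.Coprime a B → 1 ≤ B → B ≤ 2 ^ (800 * c) → m 0 = 1 →
    (∀ l < 8, m l ∣ B) → (∀ l < 8, m l ≤ 2 ^ (100 * c * l)) →
    (∀ l < 7, 2 ^ (99 * c) * m l ≤ m (l + 1)) → Rep ((a : ℚ) / B) (C * u)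

lemma greedy_step {a b : ℕ} (ha : 1 ≤ a) (hb : 1 ≤ b) :
    ∃ n a' : ℕ, 1 ≤ n ∧ b ≤ a * n ∧ n ≤ b ∧ a' < a ∧
      (a : ℚ) / b = 1 / (n : ℚ) + (a' : ℚ) / ((b * n : ℕ) : ℚ) := by
  set n := (b + a - 1) / a with hn
  have h1 : a * n + (b + a - 1) % a = b + a - 1 := Nat.div_add_mod _ _
  have h2 : (b + a - 1) % a < a := Nat.mod_lt _ ha
  have h3 : b ≤ a * n := by omega
  have hn1 : 1 ≤ n := by
    rcases Nat.eq_zero_or_pos n with h | h
    · rw [h] at h3; omega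
    · exact h
  refine ⟨n, a * n - b, hn1, h3, ?_, by omega, ?_⟩
  · by_contra hlt
    have h4 : b + 1 ≤ n := by omega
    have h5 : a * (b + 1) ≤ a * n := Nat.mul_le_mul_left _ h4
    have h6 : b ≤ a * b := Nat.le_mul_of_pos_left _ ha
    rw [Nat.mul_add] at h5
    omega
  · have hbq : (0 : ℚ) < b := by exact_mod_cast hb
    have hnq : (0 : ℚ) < n := by exact_mod_cast hn1
    rw [Nat.cast_sub h3]
    push_cast
    field_simp
    ring

lemma greedy_iter {a b : ℕ} (ha : 1 ≤ a) (hab : a < b) (i : ℕ) :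
    Rep ((a : ℚ) / b) (i + 1) ∨ ∃ a' b' : ℕ, 1 ≤ a' ∧ a' ≤ a ∧ a' * 2 ^ (2 ^ i) ≤ b' ∧
      b' ≤ b ^ (2 ^ (i + 1)) ∧ Rep ((a : ℚ) / b - (a' : ℚ) / b') (i + 1) := by
  induction i with
  | zero =>
    obtain ⟨n, a', hn, h1, h2, h3, h4⟩ := greedy_step ha (show 1 ≤ b by omega)
    rcases Nat.eq_zero_or_pos a' with h0 | h0
    · left
      rw [h4, h0]; simpa using Rep.unit hn
    · right
      have hn2 : 2 ≤ n := by
        by_contra h
        have : n = 1 := by omega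
        rw [this] at h1; omega
      refine ⟨a', b * n, h0, h3.le, by norm_num; nlinarith, by norm_num; nlinarith, ?_⟩
      rw [h4]; simpa using Rep.unit hn
  | succ i ih =>
    rcases ih with h | ⟨a', b', h1, h2, h3, h4, h5⟩
    · exact Or.inl (h.mono (by omega))
    have hb' : 1 ≤ b' := le_trans (Nat.mul_pos h1 (by positivity)) h3
    obtain ⟨n, a'', hn, g1, g2, g3, g4⟩ := greedy_step h1 hb'
    have hr := h5.add (Rep.unit hn)
    rcases Nat.eq_zero_or_pos a'' with h0 | h0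
    · left
      convert hr using 1
      rw [g4, h0]; simp
    · right
      refine ⟨a'', b' * n, h0, by omega, ?_, ?_, ?_⟩
      · have h6 : 2 ^ (2 ^ i) ≤ n := by
          have : a' * 2 ^ (2 ^ i) ≤ a' * n := h3.trans g1
          exact Nat.le_of_mul_le_mul_left this h1
        calc a'' * 2 ^ (2 ^ (i + 1)) = (a'' * 2 ^ (2 ^ i)) * 2 ^ (2 ^ i) := by
              rw [pow_succ 2 i, pow_mul, sq]; ring
          _ ≤ b' * n := Nat.mul_le_mul (le_trans (Nat.mul_le_mul_right _ g3.le) h3) h6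
      · calc b' * n ≤ b' * b' := Nat.mul_le_mul_left _ g2
          _ ≤ b ^ (2 ^ (i + 1)) * b ^ (2 ^ (i + 1)) := Nat.mul_le_mul h4 h4
          _ = b ^ (2 ^ (i + 1 + 1)) := by rw [← pow_add, pow_succ 2 (i + 1)]; congr 1; ring
      · convert hr using 1
        rw [g4]; ring

lemma div_gcd_dvd {m B g : ℕ} (hm : m ∣ B) (hg : g ∣ B) (hB : 0 < B) :
    m / Nat.gcd m g ∣ B / g := by
  have hg0 : 0 < g := Nat.pos_of_dvd_of_pos hg hB
  rw [Nat.dvd_div_iff_mul_dvd hg]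
  have : g * (m / Nat.gcd m g) = Nat.lcm m g := by
    rw [Nat.lcm, mul_comm m g, Nat.mul_div_assoc _ (Nat.gcd_dvd_left m g)]
  rw [this]
  exact Nat.lcm_dvd hm hg

/-- the three last greedy steps, and the core -/
lemma after_core {C u₀ : ℕ} (hC : Core C u₀) {u c a β : ℕ} (hu : u₀ ≤ u)
    (hc1 : 2 ^ (10 * u + 1) ≤ c) (hc2 : c < 2 ^ (10 * u + 11)) (ha : 1 ≤ a) (hac : a ≤ 2 ^ c)
    (hβ : β ≤ 2 ^ (100 * c)) (hβ' : 2 ^ (99 * c) * a ^ 9 ≤ β) :
    Rep ((a : ℚ) / β) (3 + C * u) := by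
  have hβ1 : 1 ≤ β := le_trans (Nat.mul_pos (by positivity) (Nat.pow_pos ha)) hβ'
  obtain ⟨n₀, a₁, hn₀, f1, f2, f3, f4⟩ := greedy_step ha hβ1
  rcases Nat.eq_zero_or_pos a₁ with h0 | ha₁
  · rw [f4, h0]; simpa using (Rep.unit hn₀).mono (by omega)
  have hβ₁ : 1 ≤ β * n₀ := Nat.mul_pos hβ1 hn₀
  obtain ⟨n₁, a₂, hn₁, g1, g2, g3, g4⟩ := greedy_step ha₁ hβ₁
  rcases Nat.eq_zero_or_pos a₂ with h0 | ha₂
  · rw [f4, g4, h0]; simpa using ((Rep.unit hn₀).add (Rep.unit hn₁)).mono (by omega)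
  have hβ₂ : 1 ≤ β * n₀ * n₁ := Nat.mul_pos hβ₁ hn₁
  obtain ⟨n₂, a₃, hn₂, k1, k2, k3, k4⟩ := greedy_step ha₂ hβ₂
  have h3 := ((Rep.unit hn₀).add (Rep.unit hn₁)).add (Rep.unit hn₂)
  rcases Nat.eq_zero_or_pos a₃ with h0 | ha₃
  · rw [f4, g4, k4, h0]; simpa [add_assoc] using h3.mono (by omega)
  set B₀ := β * n₀ * n₁ * n₂ with hB₀
  have hB₀pos : 0 < B₀ := Nat.mul_pos hβ₂ hn₂
  set g := Nat.gcd a₃ B₀ with hg
  have hgpos : 0 < g := Nat.gcd_pos_of_pos_left _ ha₃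
  have hga : g ≤ a := le_trans (Nat.gcd_le_left _ ha₃) (by omega)
  -- size bounds
  have u0 : n₀ ≤ β := f2
  have u1 : n₁ ≤ β ^ 2 := g2.trans (by nlinarith)
  have u2 : n₂ ≤ β ^ 4 := k2.trans (by
    calc β * n₀ * n₁ ≤ β * β * β ^ 2 := Nat.mul_le_mul (Nat.mul_le_mul_left _ u0) u1
      _ = β ^ 4 := by ring)
  have l0 : β ≤ n₀ * a := by rw [mul_comm]; exact f1
  have l1 : β ^ 2 ≤ n₁ * a ^ 2 := by
    calc β ^ 2 = β * β := sq β
      _ ≤ β * (n₀ * a) := Nat.mul_le_mul_left _ l0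
      _ = (β * n₀) * a := by ring
      _ ≤ (a₁ * n₁) * a := Nat.mul_le_mul_right _ g1
      _ ≤ (a * n₁) * a := Nat.mul_le_mul_right _ (Nat.mul_le_mul_right _ f3.le)
      _ = n₁ * a ^ 2 := by ring
  have l2 : β ^ 4 ≤ n₂ * a ^ 4 := by
    calc β ^ 4 = β * β * β ^ 2 := by ring
      _ ≤ β * (n₀ * a) * (n₁ * a ^ 2) := Nat.mul_le_mul (Nat.mul_le_mul_left _ l0) l1
      _ = (β * n₀ * n₁) * a ^ 3 := by ring
      _ ≤ (a₂ * n₂) * a ^ 3 := Nat.mul_le_mul_right _ k1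
      _ ≤ (a * n₂) * a ^ 3 := Nat.mul_le_mul_right _ (Nat.mul_le_mul_right _ (by omega))
      _ = n₂ * a ^ 4 := by ring
  set M : ℕ → ℕ := fun l => n₀ ^ (l % 2) * n₁ ^ (l / 2 % 2) * n₂ ^ (l / 4 % 2) with hM
  have hMup : ∀ l < 8, M l ≤ β ^ l := by
    intro l hl
    calc M l ≤ β ^ (l % 2) * (β ^ 2) ^ (l / 2 % 2) * (β ^ 4) ^ (l / 4 % 2) := by
          simp only [hM]; gcongr
      _ = β ^ l := by
          rw [← pow_mul, ← pow_mul, ← pow_add, ← pow_add]; congr 1; omega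
  have hMlo : ∀ l < 8, β ^ l ≤ M l * a ^ l := by
    intro l hl
    calc β ^ l = β ^ (l % 2) * (β ^ 2) ^ (l / 2 % 2) * (β ^ 4) ^ (l / 4 % 2) := by
          rw [← pow_mul, ← pow_mul, ← pow_add, ← pow_add]; congr 1; omega
      _ ≤ (n₀ * a) ^ (l % 2) * (n₁ * a ^ 2) ^ (l / 2 % 2) * (n₂ * a ^ 4) ^ (l / 4 % 2) := by
          gcongr
      _ = M l * (a ^ (l % 2) * (a ^ 2) ^ (l / 2 % 2) * (a ^ 4) ^ (l / 4 % 2)) := by
          simp only [hM, mul_pow]; ring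
      _ = M l * a ^ l := by
          rw [← pow_mul, ← pow_mul, ← pow_add, ← pow_add]; congr 2; omega
  have hMdvd : ∀ l, M l ∣ B₀ := by
    intro l
    have hp : ∀ n e : ℕ, n ^ (e % 2) ∣ n := by
      intro n e
      rcases Nat.mod_two_eq_zero_or_one e with h | h <;> simp [h]
    have : M l ∣ n₀ * n₁ * n₂ := mul_dvd_mul (mul_dvd_mul (hp _ _) (hp _ _)) (hp _ _)
    refine this.trans ⟨β, by rw [hB₀]; ring⟩
  have hMpos : ∀ l, 0 < M l := fun l => Nat.pos_of_dvd_of_pos (hMdvd l) hB₀pos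
  set m : ℕ → ℕ := fun l => M l / Nat.gcd (M l) g with hm
  have hmM : ∀ l, m l ≤ M l := fun l => Nat.div_le_self _ _
  have hMm : ∀ l, M l ≤ m l * a := by
    intro l
    calc M l = m l * Nat.gcd (M l) g := (Nat.div_mul_cancel (Nat.gcd_dvd_left _ _)).symm
      _ ≤ m l * a := Nat.mul_le_mul_left _ (le_trans (Nat.gcd_le_right _ hgpos) hga)
  have hcore := hC u c (a₃ / g) (B₀ / g) m hu hc1 hc2
    (Nat.div_pos (Nat.gcd_le_left _ ha₃) hgpos)
    (le_trans (Nat.div_le_self _ _) (by omega))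
    (Nat.coprime_div_gcd_div_gcd hgpos)
    (Nat.div_pos (Nat.gcd_le_right _ hB₀pos) hgpos)
    (le_trans (Nat.div_le_self _ _) (by
      calc B₀ ≤ β * β * β ^ 2 * β ^ 4 := by rw [hB₀]; gcongr
        _ = β ^ 8 := by ring
        _ ≤ (2 ^ (100 * c)) ^ 8 := by gcongr
        _ = 2 ^ (800 * c) := by rw [← pow_mul]; congr 1; ring))
    (by simp [hm, hM])
    (fun l _ => div_gcd_dvd (hMdvd l) (Nat.gcd_dvd_right _ _) hB₀pos)
    (fun l hl => (hmM l).trans ((hMup l hl).trans (by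
      rw [pow_mul 2 (100 * c) l]; gcongr)))
    (fun l hl => by
      have hapos : 0 < a ^ 9 := by positivity
      refine Nat.le_of_mul_le_mul_right ?_ hapos
      calc 2 ^ (99 * c) * m l * a ^ 9 = (2 ^ (99 * c) * a ^ 9) * m l := by ring
        _ ≤ β * β ^ l := Nat.mul_le_mul hβ' ((hmM l).trans (hMup l (by omega)))
        _ = β ^ (l + 1) := by ring
        _ ≤ M (l + 1) * a ^ (l + 1) := hMlo _ (by omega)
        _ ≤ (m (l + 1) * a) * a ^ (l + 1) := Nat.mul_le_mul_right _ (hMm _)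
        _ = m (l + 1) * a ^ (l + 2) := by ring
        _ ≤ m (l + 1) * a ^ 9 := Nat.mul_le_mul_left _ (Nat.pow_le_pow_right ha (by omega)))
  have heq : ((a₃ / g : ℕ) : ℚ) / ((B₀ / g : ℕ) : ℚ) = (a₃ : ℚ) / (B₀ : ℚ) := by
    have hgq : (g : ℚ) ≠ 0 := by exact_mod_cast hgpos.ne'
    rw [Nat.cast_div (Nat.gcd_dvd_left _ _) hgq, Nat.cast_div (Nat.gcd_dvd_right _ _) hgq]
    have hBq : (B₀ : ℚ) ≠ 0 := by exact_mod_cast hB₀pos.ne'
    field_simp
  rw [heq] at hcore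
  have := h3.add hcore
  rw [f4, g4, k4]
  convert this using 1
  ring

theorem rep_of_core {C u₀ : ℕ} (hC : Core C u₀) :
    ∃ b₀ : ℕ, ∀ a b : ℕ, b₀ ≤ b → 1 ≤ a → a < b →
      Rep ((a : ℚ) / b) ((C + 20) * (Nat.log 2 (Nat.log 2 b + 1) + 1)) := by
  refine ⟨2 ^ (2 ^ (10 * u₀ + 11)), fun a b hb ha hab => ?_⟩
  set L := Nat.log 2 b + 1 with hL
  have hbL : b < 2 ^ L := Nat.lt_pow_succ_log_self (by norm_num) b
  have hL0 : 2 ^ (10 * u₀ + 11) < L := by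
    have := Nat.le_log_of_pow_le (by norm_num : 1 < 2) hb
    omega
  set ℓ := Nat.log 2 L + 1 with hℓ
  have hLℓ : L < 2 ^ ℓ := Nat.lt_pow_succ_log_self (by norm_num) L
  have hℓL : 2 ^ ℓ ≤ 2 * L := by
    have := Nat.pow_log_le_self 2 (show L ≠ 0 by omega)
    rw [hℓ, pow_succ]; omega
  have hℓ0 : 10 * u₀ + 11 < ℓ := by
    have := Nat.le_log_of_pow_le (by norm_num : 1 < 2) hL0.le
    omega
  have hL10 : 2048 ≤ L := by
    have : 2 ^ 11 ≤ 2 ^ (10 * u₀ + 11) := Nat.pow_le_pow_right (by norm_num) (by omega)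
    omega
  rcases greedy_iter ha hab (11 + ℓ) with h | ⟨a', β, h1, h2, h3, h4, h5⟩
  · exact h.mono (by nlinarith)
  have hβpos : β ≠ 0 := by
    have : 0 < a' * 2 ^ (2 ^ (11 + ℓ)) := by positivity
    omega
  set c := Nat.log 2 β / 100 + 1 with hc
  have hβ1 : β < 2 ^ (Nat.log 2 β + 1) := Nat.lt_pow_succ_log_self (by norm_num) β
  have hβ2 : 2 ^ (Nat.log 2 β) ≤ β := Nat.pow_log_le_self 2 hβpos
  have hlog1 : 2 ^ (11 + ℓ) ≤ Nat.log 2 β := by
    apply Nat.le_log_of_pow_le (by norm_num : 1 < 2)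
    exact le_trans (Nat.le_mul_of_pos_left _ h1) h3
  have hlog1' : 2048 * L ≤ Nat.log 2 β := by
    rw [pow_add] at hlog1; omega
  have hlog2 : Nat.log 2 β ≤ 2 ^ (12 + 2 * ℓ) := by
    have : 2 ^ (Nat.log 2 β) ≤ 2 ^ (2 ^ (12 + 2 * ℓ)) := by
      calc 2 ^ (Nat.log 2 β) ≤ β := hβ2
        _ ≤ b ^ (2 ^ (11 + ℓ + 1)) := h4
        _ ≤ (2 ^ (2 ^ ℓ)) ^ (2 ^ (11 + ℓ + 1)) := by
          gcongr
          exact hbL.le.trans (Nat.pow_le_pow_right (by norm_num) hLℓ.le)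
        _ = 2 ^ (2 ^ (12 + 2 * ℓ)) := by
          rw [← pow_mul, ← pow_add]; congr 2; ring
    exact (Nat.pow_le_pow_iff_right (by norm_num)).1 this
  have hcL : 20 * L ≤ c := by omega
  have hc0 : c ≠ 0 := by omega
  set u := (Nat.log 2 c - 1) / 10 with hu
  have hlc1 : 2 ^ (Nat.log 2 c) ≤ c := Nat.pow_log_le_self 2 hc0
  have hlc2 : c < 2 ^ (Nat.log 2 c + 1) := Nat.lt_pow_succ_log_self (by norm_num) c
  have hlc3 : 10 * u₀ + 11 ≤ Nat.log 2 c :=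
    Nat.le_log_of_pow_le (by norm_num : 1 < 2) (by omega)
  have hlc4 : Nat.log 2 c ≤ 12 + 2 * ℓ := by
    have : 2 ^ (Nat.log 2 c) ≤ 2 ^ (12 + 2 * ℓ) := by omega
    exact (Nat.pow_le_pow_iff_right (by norm_num)).1 this
  have haL : a' ≤ 2 ^ L := by omega
  have hcore := after_core hC (u := u) (c := c) (a := a') (β := β) (by omega)
    (le_trans (Nat.pow_le_pow_right (by norm_num) (by omega)) hlc1)
    (lt_of_lt_of_le hlc2 (Nat.pow_le_pow_right (by norm_num) (by omega)))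
    h1 (haL.trans (Nat.pow_le_pow_right (by norm_num) (by omega)))
    (hβ1.le.trans (Nat.pow_le_pow_right (by norm_num) (by omega)))
    (by
      calc 2 ^ (99 * c) * a' ^ 9 ≤ 2 ^ (99 * c) * (2 ^ L) ^ 9 := by gcongr
        _ = 2 ^ (99 * c + L * 9) := by rw [← pow_mul, ← pow_add]
        _ ≤ 2 ^ (Nat.log 2 β) := Nat.pow_le_pow_right (by norm_num) (by omega)
        _ ≤ β := hβ2)
  have := h5.add hcore
  rw [sub_add_cancel] at this
  refine this.mono ?_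
  have hul : u ≤ ℓ := by omega
  nlinarith

theorem final_of_core {C u₀ : ℕ} (hC : Core C u₀) :
    ∃ C : ℝ, ∃ b₀ : ℕ, ∀ (a b : ℕ), b₀ ≤ b → 1 ≤ a → a < b →
      ∃ S : Finset ℕ, (∀ n ∈ S, 2 ≤ n) ∧ (S.card : ℝ) ≤ C * Real.log (Real.log (b : ℝ)) ∧
        ∑ n ∈ S, (1 : ℚ) / (n : ℚ) = (a : ℚ) / (b : ℚ) := by
  obtain ⟨b₀, h⟩ := rep_of_core hC
  refine ⟨(C + 20) * 5, max b₀ 32, fun a b hb ha hab => ?_⟩
  have hb0 : b₀ ≤ b := le_trans (le_max_left _ _) hb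
  have hb32 : 32 ≤ b := le_trans (le_max_right _ _) hb
  have hbq : (0 : ℚ) < b := by exact_mod_cast (show 0 < b by omega)
  obtain ⟨S, h1, h2, h3⟩ := takenouchi (by
    rw [div_lt_one hbq]; exact_mod_cast hab) (h a b hb0 ha hab)
  refine ⟨S, h1, ?_, h3⟩
  set L := Nat.log 2 b + 1 with hL
  have hl2 : (0.69 : ℝ) < Real.log 2 := by have := Real.log_two_gt_d9; linarith
  have hl2' : Real.log 2 < 0.7 := by have := Real.log_two_lt_d9; linarith
  have hlog : ∀ n : ℕ, n ≠ 0 → (Nat.log 2 n : ℝ) * Real.log 2 ≤ Real.log n := by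
    intro n hn
    rw [← Real.log_pow]
    apply Real.log_le_log (by positivity)
    exact_mod_cast Nat.pow_log_le_self 2 hn
  have hb3 : (3 : ℝ) ≤ Real.log b := by
    have : Real.log (2 ^ 5) ≤ Real.log b := by
      apply Real.log_le_log (by positivity)
      exact_mod_cast hb32
    rw [Real.log_pow] at this
    push_cast at this; linarith
  have hll : (1 : ℝ) ≤ Real.log (Real.log b) := by
    rw [Real.le_log_iff_exp_le (by linarith)]
    have := Real.exp_one_lt_d9; linarith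
  have hL1 : (L : ℝ) ≤ 2 * Real.log b := by
    have := hlog b (by omega)
    rw [hL]; push_cast
    have h0 : (0 : ℝ) ≤ Nat.log 2 b := by positivity
    nlinarith
  have hL2 : Real.log L ≤ Real.log 2 + Real.log (Real.log b) := by
    rw [← Real.log_mul (by norm_num) (by linarith)]
    apply Real.log_le_log _ hL1
    rw [hL]; positivity
  have hL3 := hlog L (by omega)
  have hL4 : (Nat.log 2 L : ℝ) + 1 ≤ 5 * Real.log (Real.log b) := by
    have h0 : (0 : ℝ) ≤ Nat.log 2 L := by positivity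
    nlinarith
  calc (S.card : ℝ) ≤ (((C + 20) * (Nat.log 2 L + 1) : ℕ) : ℝ) := by exact_mod_cast h2
    _ = (C + 20) * ((Nat.log 2 L : ℝ) + 1) := by push_cast; ring
    _ ≤ (C + 20) * (5 * Real.log (Real.log b)) := by gcongr
    _ = _ := by ring

end Crest.Agent.Egy
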