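import Crest.Agent.Egy.Avg
import Crest.Agent.Egy.Greedy

set_option autoImplicit false

namespace Crest.Agent.Egy

open Crest.Agent.UF

lemma cert {φ : ℝ → ℝ} (S : Finset ℕ) {H : ℝ → ℂ} {N R : ℕ} (hN : 1 ≤ N) (hR : 1 ≤ R)
    (hH : H ∈ TP (Set.Icc 0 (N : ℤ))) (hA : ∀ Q ∈ S, AA φ Q ≤ AA (fun t => ‖H t‖ ^ 2) Q)
    {μ x κ : ℝ} (hμ : JJ (fun t => ‖H t‖ ^ 2) ≤ P2 μ) (hκ : 1 ≤ κ) (hRx : (R : ℝ) ^ 2 ≤ 4 * P2 x)
    (hNx : (N : ℝ) ≤ κ * P2 x) :
    ∑ Q ∈ S.filter (fun Q => Q ≤ R), AA φ Q ≤ 17 * κ * P2 (x + μ) := by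
  have h1 := farey_sieve (S.filter (fun Q => Q ≤ R)) hR (fun Q hQ => (Finset.mem_filter.1 hQ).2) hN
    (TP_mono (Set.Icc_subset_Icc_left (by simp)) hH)
  refine (Finset.sum_le_sum (fun Q hQ => hA Q (Finset.mem_filter.1 hQ).1)).trans (h1.trans ?_)
  have h2 := P2_pos x
  have h3 := P2_pos μ
  calc _ ≤ (17 * κ * P2 x) * P2 μ := by
        apply mul_le_mul _ hμ (JJ_nonneg (fun θ => by positivity)) (by positivity)
        nlinarith
    _ = _ := by rw [P2_add]; ring

lemma eventually_small : ∃ u₀ : ℕ, ∀ u, u₀ ≤ u → 18 ≤ u ∧ (10 ^ 9 * u ^ 2) ^ 10 ≤ 2 ^ u := by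
  have h := tendsto_pow_const_div_const_pow_of_one_lt 20 (show (1 : ℝ) < 2 by norm_num)
  have h2 := h.eventually (gt_mem_nhds (show (0 : ℝ) < 1 / 10 ^ 90 by positivity))
  obtain ⟨u₀, hu⟩ := Filter.eventually_atTop.1 h2
  refine ⟨max u₀ 18, fun u hu' => ⟨le_trans (le_max_right _ _) hu', ?_⟩⟩
  have h3 := hu u (le_trans (le_max_left _ _) hu')
  rw [div_lt_div_iff₀ (by positivity) (by positivity)] at h3
  have h4 : ((10 : ℝ) ^ 9 * u ^ 2) ^ 10 ≤ 2 ^ u := by
    rw [mul_pow, ← pow_mul, ← pow_mul]; norm_num at h3 ⊢; linarith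
  exact_mod_cast h4

lemma pi_small {u j : ℕ} (hu : 1 ≤ u) (h9 : 10 ^ 9 * u ^ 2 ≤ 2 ^ u) (hj : j < 200001 * u) :
    (2 ^ (9 * u) + 1) * j ≤ Nat.primeCounting (2 ^ (10 * u)) := by
  have h1 := pi_two_pow (n := 10 * u) (by omega)
  have h2 : 2 ^ (10 * u) = 2 ^ u * 2 ^ (9 * u) := by rw [← pow_add]; congr 1; ring
  have h3 : 1 ≤ 2 ^ (9 * u) := Nat.one_le_two_pow
  set A := 2 ^ (9 * u)
  set Pi := Nat.primeCounting (2 ^ (10 * u))
  by_contra hc
  push Not at hc
  have h4 : Pi ≤ 2 * A * (200001 * u) := by nlinarith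
  have h5 : 10 * u * Pi ≤ 10 * u * (2 * A * (200001 * u)) := Nat.mul_le_mul_left _ h4
  have h6 : 10 ^ 9 * u ^ 2 * A ≤ 2 ^ u * A := Nat.mul_le_mul_right _ h9
  have h7 : u ≤ u ^ 2 * A := by nlinarith
  nlinarith

lemma adm_ge {w L Pm Q : ℕ} (hw : primorial w ∣ L) (hQ : Q ∈ adm L Pm) : w ≤ Q := by
  simp only [adm, Finset.mem_filter, Finset.mem_Icc] at hQ
  by_contra hc
  push Not at hc
  have hp := Nat.minFac_prime (show Q ≠ 1 by omega)
  have h1 : Q.minFac ≤ w := (Nat.minFac_le (by omega)).trans hc.le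
  have h2 : Q.minFac ∣ primorial w :=
    Finset.dvd_prod_of_mem _ (Finset.mem_filter.2 ⟨Finset.mem_range.2 (by omega), hp⟩)
  exact hp.one_lt.ne' (Nat.eq_one_of_dvd_coprimes hQ.2 (Nat.minFac_dvd Q) (h2.trans hw))

lemma two_pow_sq (i : ℕ) : (((2 ^ (i + 1) : ℕ) : ℝ)) ^ 2 ≤ 4 * P2 (2 * i) := by
  have : P2 (2 * i) = (2 ^ i) ^ 2 := by
    rw [← P2_nat, P2_pow]; congr 1; push_cast; ring
  rw [this]; push_cast; rw [pow_succ 2 i]; nlinarith

lemma cast_two_pow_le {n : ℕ} {x : ℝ} (h : (n : ℝ) ≤ x) : ((2 ^ n : ℕ) : ℝ) ≤ P2 x := by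
  push_cast; rw [← P2_nat]; exact P2_le h

set_option maxHeartbeats 4000000 in
theorem core : ∃ C u₀, Core C u₀ := by
  obtain ⟨u₀, hu₀⟩ := eventually_small
  refine ⟨500000, u₀, ?_⟩
  intro u c a B m hu hc1 hc2 ha hac haB hB hBc hm0 hmB hmup hmlo
  obtain ⟨hu18, h10⟩ := hu₀ u hu
  have h9 : 10 ^ 9 * u ^ 2 ≤ 2 ^ u :=
    le_trans (Nat.le_self_pow (by norm_num) _) h10
  have h10' : (10 : ℝ) ^ 9 * u ^ 2 ≤ P2 (u / 10) := by
    by_contra hc
    push Not at hc
    have := pow_lt_pow_left₀ hc (P2_pos _).le (show 10 ≠ 0 by norm_num)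
    rw [P2_pow, show (u : ℝ) / 10 * ((10 : ℕ) : ℝ) = u by push_cast; ring, P2_nat] at this
    have h : ((10 : ℝ) ^ 9 * u ^ 2) ^ 10 ≤ 2 ^ u := by exact_mod_cast h10
    linarith
  obtain ⟨v, hv⟩ : ∃ v, v = 10 * u + 18 := ⟨_, rfl⟩
  have hv11 : v ≤ 11 * u := by omega
  have hcu : 10 ^ 9 * u ^ 2 ≤ c :=
    h9.trans (le_trans (Nat.pow_le_pow_right (by norm_num) (by omega)) hc1)
  have hcq : 100 * c ≤ 2 ^ v := by
    have : 2 ^ v = 128 * 2 ^ (10 * u + 11) := by rw [hv]; ring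
    omega
  have hcv : 2000 * v ^ 2 ≤ c := by nlinarith only [hv11, hcu, Nat.pow_le_pow_left hv11 2]
  have hv1 : 12 ≤ v := by omega
  have hvc : 100 * v ≤ c := by nlinarith only [hv1, hcv]
  obtain ⟨J, hJ⟩ : ∃ J, J = 98 * c / (40 * v) := ⟨_, rfl⟩
  have hJ1 : 40 * v * J ≤ 98 * c := by rw [hJ]; exact Nat.mul_div_le _ _
  have hJ2 : 98 * c < 40 * v * (J + 1) := by rw [hJ]; exact Nat.lt_mul_div_succ _ (by omega)
  obtain ⟨Λ, F, hΛ1, hΛ2, hΛB, hF, hF0, hF1, -, hFM, hFA⟩ := chain hv1 hB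
    (hBc.trans (Nat.pow_le_pow_right (by norm_num) (by omega))) J (by omega)
  have hvr : (12 : ℝ) ≤ v := by exact_mod_cast hv1
  have hcvr : 2000 * (v : ℝ) ^ 2 ≤ c := by exact_mod_cast hcv
  have hJ2r : 98 * (c : ℝ) < 40 * v * (J + 1) := by exact_mod_cast hJ2
  have hsub : ∀ j : ℕ, (j : ℝ) - 40 * v ≤ ((j - 40 * v : ℕ) : ℝ) := by
    intro j
    have : j ≤ (j - 40 * v) + 40 * v := by omega
    have : (j : ℝ) ≤ ((j - 40 * v : ℕ) : ℝ) + 40 * v := by exact_mod_cast this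
    linarith
  have hM : JJ (fun θ => ‖F θ‖ ^ (2 * (80 * v))) ≤ P2 (-(77 * c)) := by
    rw [show 2 * (80 * v) = 160 * v by ring]
    refine hFM.trans (P2_le ?_)
    have := mul_le_mul_of_nonneg_left (hsub J) (show (0 : ℝ) ≤ 32 * v by positivity)
    nlinarith only [this, hJ2r, hcvr, hvr]
  obtain ⟨G, hG8, hG0, hGF, hG1, hGs⟩ := digits (Z := 2 ^ (99 * c)) hF hF0 hF1 hM hm0 hmB hB (by
    have e1 : 2 ^ (40 * v * J) ≤ 2 ^ (98 * c) := Nat.pow_le_pow_right (by norm_num) hJ1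
    have e2 : c < 2 ^ c := Nat.lt_two_pow_self
    have e3 : 2 ^ (99 * c) = 2 ^ c * 2 ^ (98 * c) := by rw [← pow_add]; congr 1; ring
    have e4 : 1 ≤ 2 ^ (98 * c) := Nat.one_le_two_pow
    have e5 : 80 * v + 1 ≤ 2 ^ c := by omega
    calc 1 + 80 * v * 2 ^ (40 * v * J) ≤ 2 ^ (98 * c) + 80 * v * 2 ^ (98 * c) := by gcongr
      _ = (80 * v + 1) * 2 ^ (98 * c) := by ring
      _ ≤ _ := by rw [e3]; gcongr) hmlo
  -- smooth factors
  obtain ⟨w, hw⟩ : ∃ w, w = 2 ^ (10 * u) := ⟨_, rfl⟩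
  have hsm : ∀ j : ℕ, ∃ g : ℝ → ℂ, j < 200001 * u → g ∈ TP (Dv (primorial w) (w ^ j)) ∧ g 0 = 1 ∧
      (∀ θ, ‖g θ‖ ≤ 1) ∧ JJ (fun θ => ‖g θ‖ ^ 2) ≤ (((2 ^ (9 * u) : ℕ) : ℝ) ^ j)⁻¹ := by
    intro j
    by_cases hj : j < 200001 * u
    · obtain ⟨g, hg⟩ := smooth (w := w) (j := j) (x := 2 ^ (9 * u)) Nat.one_le_two_pow
        (hw ▸ pi_small (by omega) h9 hj)
      exact ⟨g, fun _ => hg⟩
    · exact ⟨0, fun h => absurd h hj⟩
  choose g hg using hsm
  set PR := (Finset.range (w + 1)).filter Nat.Prime with hPR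
  set W₂ := ∏ p ∈ PR.filter (fun p => p ∣ B), p with hW₂
  set W₁ := ∏ p ∈ PR.filter (fun p => ¬ p ∣ B), p with hW₁
  have hW : W₂ * W₁ = primorial w := Finset.prod_filter_mul_prod_filter_not _ _ _
  have hW₂B : W₂ ∣ B := Finset.prod_primes_dvd _
    (fun p hp => (Finset.mem_filter.1 (Finset.mem_filter.1 hp).1).2.prime)
    (fun p hp => (Finset.mem_filter.1 hp).2)
  have hW₁B : Nat.Coprime W₁ B := Nat.Coprime.prod_left (fun p hp =>
    ((Finset.mem_filter.1 (Finset.mem_filter.1 hp).1).2.coprime_iff_not_dvd).2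
      (Finset.mem_filter.1 hp).2)
  have hWpos : 0 < W₂ * W₁ := hW ▸ primorial_pos w
  have hW₁pos : 0 < W₁ := Nat.pos_of_mul_pos_left hWpos
  have hW₂pos : 0 < W₂ := Nat.pos_of_mul_pos_right hWpos
  clear_value W₁ W₂
  obtain ⟨Γ, hΓ, hΓ0, hΓ1, hΓg⟩ := prod_smooth (D := B * Λ * W₁) g (200001 * u)
    (fun j hj => TP_mono (by
      rintro _ ⟨d, rfl, hd, -⟩
      refine SD_one (hd.trans ?_)
      rw [← hW]
      exact Nat.mul_dvd_mul (hW₂B.mul_right _) dvd_rfl) (hg j hj).1)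
    (fun j hj => (hg j hj).2.1) (fun j hj => (hg j hj).2.2.1)
  have hΦ : G 8 * Γ ∈ TP (SD (B * Λ * W₁) (8 * (80 * v) + 200001 * u)) := by
    refine TP_mul (fun a ha a' ha' => SD_add ha ha') (TP_mono ?_ hG8) hΓ
    rintro _ ⟨l, h1, h2, rfl⟩
    exact ⟨l, h1, fun d hd => (h2 d hd).mul_right _, rfl⟩
  have hΦG : ∀ θ, ‖(G 8 * Γ) θ‖ ≤ ‖G 8 θ‖ := fun θ => by
    rw [Pi.mul_apply, norm_mul]; exact mul_le_of_le_one_right (norm_nonneg _) (hΓ1 θ)
  have hΦΓ : ∀ θ, ‖(G 8 * Γ) θ‖ ≤ ‖Γ θ‖ := fun θ => by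
    rw [Pi.mul_apply, norm_mul]; exact mul_le_of_le_one_left (norm_nonneg _) (hG1 θ)
  have hΦ0 : (G 8 * Γ) 0 = 1 := by simp [hG0, hΓ0]
  generalize G 8 * Γ = Φ at hΦ hΦG hΦΓ hΦ0
  -- the arithmetic progression
  obtain ⟨A, hA⟩ : ∃ A, A = a * Λ * W₁ := ⟨_, rfl⟩
  have hApos : 0 < A := by rw [hA]; positivity
  have hAB : Nat.Coprime A B := by
    rw [hA]; exact Nat.Coprime.mul_left (Nat.Coprime.mul_left haB hΛB) hW₁B
  obtain ⟨L, hL⟩ : ∃ L, L = A * W₂ := ⟨_, rfl⟩
  have hLpos : 0 < L := by rw [hL]; positivity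
  have hAL : A ≤ L := by rw [hL]; exact Nat.le_mul_of_pos_right _ hW₂pos
  have hLle : L ≤ 2 ^ (198 * c) := by
    have e1 : primorial w ≤ 2 ^ c := by
      refine (primorial_le_four_pow w).trans ?_
      rw [show (4 : ℕ) = 2 ^ 2 by norm_num, ← pow_mul]
      refine Nat.pow_le_pow_right (by norm_num) ?_
      rw [pow_succ] at hc1; omega
    have e2 : Λ ≤ 2 ^ (196 * c) := hΛ2.trans (Nat.pow_le_pow_right (by norm_num) (by nlinarith only [hJ1]))
    calc L = a * Λ * primorial w := by rw [hL, hA, ← hW]; ring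
      _ ≤ 2 ^ c * 2 ^ (196 * c) * 2 ^ c := by gcongr
      _ = _ := by rw [← pow_add, ← pow_add]; congr 1; ring
  have hdiv := Nat.div_add_mod B L
  have hmod := Nat.mod_lt B hLpos
  obtain ⟨c₀, hc₀⟩ : ∃ c₀, c₀ + B % L = A + L := ⟨A + L - B % L, by omega⟩
  have hPB : ∀ t, c₀ + L * t + B = A * (1 + W₂ * (B / L + 1 + t)) := by
    intro t
    have : A * (1 + W₂ * (B / L + 1 + t)) = A + L * (B / L) + L + L * t := by
      conv_rhs => rw [hL]
      rw [← hL]; rw [hL]; ring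
    omega
  have hadm : ∀ Q ∈ adm L (2 ^ (399 * c)), Nat.Coprime Λ Q := by
    intro Q hQ
    have := (Finset.mem_filter.1 hQ).2
    refine Nat.Coprime.coprime_dvd_left ?_ this.symm
    rw [hL, hA]; exact ⟨a * W₁ * W₂, by ring⟩
  have hc0 : 1 ≤ c := by omega
  have hcr : (1 : ℝ) ≤ c := by exact_mod_cast hc0
  have hsq : ∀ {H : ℝ → ℂ}, (∀ θ, ‖Φ θ‖ ≤ ‖H θ‖) → ∀ Q,
      AA (fun t => ‖Φ t‖ ^ 2) Q ≤ AA (fun t => ‖H t‖ ^ 2) Q :=
    fun h Q => AA_mono (fun θ => pow_le_pow_left₀ (norm_nonneg _) (h θ) 2) Q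
  have hmpos : ∀ l < 8, 0 < m l := fun l hl => Nat.pos_of_dvd_of_pos (hmB l hl) hB
  have hdig : ∀ s : ℕ, s < 8 → ∀ R : ℕ, 1 ≤ R → (R : ℝ) ^ 2 ≤ 4 * P2 (100 * c * (s + 1)) →
      ∑ Q ∈ (adm L (2 ^ (399 * c))).filter (fun Q => Q ≤ R), AA (fun t => ‖Φ t‖ ^ 2) Q ≤
        17 * P2 (23 * c * (s + 1)) := by
    intro s hs R hR hR'
    obtain ⟨e1, e2, e3⟩ := hGs s hs
    have := cert (adm L (2 ^ (399 * c))) (κ := 1) (μ := -(77 * c) * (s + 1))
      (Nat.mul_pos (by positivity) (hmpos s hs)) hR e1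
      (fun Q _ => hsq (fun θ => (hΦG θ).trans (e3 θ)) Q)
      (by rw [P2_pow] at e2; push_cast at e2; exact e2) le_rfl hR' (by
        rw [one_mul]
        have e4 : 2 ^ (99 * c) * m s ≤ 2 ^ (99 * c + 100 * c * s) := by
          rw [pow_add]; exact Nat.mul_le_mul_left _ (hmup s hs)
        refine le_trans (by exact_mod_cast e4) (cast_two_pow_le ?_)
        push_cast; nlinarith only [hcr])
    rw [mul_one] at this
    convert this using 3; ring
  obtain ⟨t, -, ht⟩ := averaging (φ := fun t => ‖Φ t‖ ^ 2) (fun x => by positivity) (c := c₀)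
    (L := L) (T := 2 ^ (200 * c)) (Pm := 2 ^ (399 * c)) (by positivity) (fun t _ => by omega)
    (fun t ht => by
      have e1 : 2 ^ (399 * c) = 2 ^ (198 * c) * (2 ^ c * 2 ^ (200 * c)) := by
        rw [← pow_add, ← pow_add]; congr 1; ring
      have e2 : 2 ≤ 2 ^ c := by
        calc 2 = 2 ^ 1 := by norm_num
          _ ≤ 2 ^ c := Nat.pow_le_pow_right (by norm_num) hc0
      calc c₀ + L * t ≤ L * (t + 2) := by rw [mul_add]; omega
        _ ≤ 2 ^ (198 * c) * (2 ^ c * 2 ^ (200 * c)) := by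
          refine Nat.mul_le_mul hLle ?_
          nlinarith only [e2, ht]
        _ = _ := e1.symm)
    (fun t _ => by rw [hL]; exact coprime_aux hAB hW₂B (by rw [← hL]; exact hPB t))
    (by
      refine (dyadic (fun x => by positivity) _ (i₀ := 10 * u) (i₁ := 400 * c)
        (K := 17 * (80 * v)) (by positivity) (fun Q hQ => ⟨?_, ?_⟩) (fun i hi1 hi2 => ?_)).trans ?_
      · rw [← hw]
        refine adm_ge ?_ hQ
        rw [hL, hA, ← hW]; exact ⟨a * Λ, by ring⟩
      · have := (Finset.mem_Icc.1 (Finset.mem_filter.1 hQ).1).2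
        exact this.trans_lt (Nat.pow_lt_pow_right (by norm_num) (by omega))
      · have hK1 : ∀ x : ℝ, x ≤ 99 / 100 * i → 17 * P2 x ≤ 17 * (80 * v) * P2 (99 / 100 * i) := by
          intro x hx
          have e1 := P2_le hx
          have e2 := P2_pos (99 / 100 * i)
          nlinarith only [e1, e2, hvr]
        by_cases hiA : i < 200 * v * (40 * v + 1)
        · -- smooth range
          obtain ⟨j, hj⟩ : ∃ j, j = i / (5 * u) := ⟨_, rfl⟩
          have hj1 : 5 * u * j ≤ i := by rw [hj]; exact Nat.mul_div_le _ _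
          have hj2 : i < 5 * u * (j + 1) := by rw [hj]; exact Nat.lt_mul_div_succ _ (by omega)
          have hj3 : 2 ≤ j := by
            by_contra h
            have : j + 1 ≤ 2 := by omega
            nlinarith only [this, hi1, hj2]
          have hj4 : j < 200001 * u := by
            have e1 : 200 * v * (40 * v + 1) ≤ 5 * u * (200001 * u) := by
              nlinarith only [hv11, hu18, Nat.pow_le_pow_left hv11 2]
            exact Nat.lt_of_mul_lt_mul_left (a := 5 * u) (by omega)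
          obtain ⟨e1, -, -, e2⟩ := hg j hj4
          have hj1r : 5 * (u : ℝ) * j ≤ i := by exact_mod_cast hj1
          have hj2r : (i : ℝ) < 5 * u * (j + 1) := by exact_mod_cast hj2
          have hj3r : (2 : ℝ) ≤ j := by exact_mod_cast hj3
          have := cert (adm L (2 ^ (399 * c))) (κ := 1) (μ := -(9 * u * j)) (x := 2 * i)
            (R := 2 ^ (i + 1)) (Nat.pow_pos (by rw [hw]; positivity)) Nat.one_le_two_pow
            (TP_mono (Dv_sub _ _) e1)
            (fun Q _ => hsq (fun θ => (hΦΓ θ).trans (hΓg j hj4 θ)) Q)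
            (by
              refine e2.trans (le_of_eq ?_)
              push_cast
              rw [← P2_nat, P2_pow, P2_inv]; congr 1; push_cast; ring) le_rfl (two_pow_sq i) (by
              rw [one_mul, hw, ← pow_mul]
              refine cast_two_pow_le ?_
              push_cast; linarith)
          rw [mul_one] at this
          refine this.trans (hK1 _ ?_)
          have hu0 : (0 : ℝ) ≤ u := by positivity
          nlinarith only [hj2r, mul_le_mul_of_nonneg_left hj3r hu0, hu0]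
        · obtain ⟨j, hj⟩ : ∃ j, j = i / (20 * v) := ⟨_, rfl⟩
          have hj1 : 20 * v * j ≤ i := by rw [hj]; exact Nat.mul_div_le _ _
          have hj2 : i < 20 * v * (j + 1) := by rw [hj]; exact Nat.lt_mul_div_succ _ (by omega)
          by_cases hjJ : j ≤ J
          · -- chain range
            obtain ⟨H, hH, hHM, hHA⟩ := hFA j hjJ
            have hj3 : 400 * v + 10 ≤ j := by
              have e1 : 20 * v * (400 * v + 10) < 20 * v * (j + 1) := by
                nlinarith only [hiA, hj2, not_lt.1 hiA]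
              have := Nat.lt_of_mul_lt_mul_left e1
              omega
            have hj1r : 20 * (v : ℝ) * j ≤ i := by exact_mod_cast hj1
            have hj2r : (i : ℝ) < 20 * v * (j + 1) := by exact_mod_cast hj2
            have hj3r : 400 * (v : ℝ) + 10 ≤ j := by exact_mod_cast hj3
            have hHk : H ^ (80 * v) ∈ TP (Set.Icc 0 ((80 * v * 2 ^ (40 * v * j) : ℕ) : ℤ)) := by
              refine TP_pow (fun k => Set.Icc 0 ((k * 2 ^ (40 * v * j) : ℕ) : ℤ)) (by simp) ?_ hH _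
              intro k a ha a' ha'
              simp only [Set.mem_Icc] at ha ha' ⊢
              push_cast at ha ha' ⊢
              constructor <;> linarith [ha.1, ha.2, ha'.1, ha'.2]
            have hHe : (fun t => ‖(H ^ (80 * v)) t‖ ^ 2) = fun t => ‖H t‖ ^ (160 * v) := by
              funext t; rw [Pi.pow_apply, norm_pow, ← pow_mul]; congr 1; ring
            have := cert (φ := fun t => ‖Φ t‖ ^ 2) (adm L (2 ^ (399 * c))) (κ := 80 * v)
              (μ := -(32 * v * ((j - 40 * v : ℕ) : ℝ))) (x := 2 * i)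
              (R := 2 ^ (i + 1)) (Nat.mul_pos (by omega) (by positivity)) Nat.one_le_two_pow hHk
              (fun Q hQ => by
                rw [hHe]
                refine le_trans (AA_mono (fun θ => ?_) Q) (hHA Q (hadm Q hQ))
                refine (pow_le_pow_left₀ (norm_nonneg _) (hΦG θ) 2).trans ?_
                rw [show 160 * v = 2 * (80 * v) by ring]
                exact hGF θ)
              (by rw [hHe]; exact hHM) (by linarith) (two_pow_sq i) (by
                rw [Nat.cast_mul]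
                refine mul_le_mul (by push_cast; exact le_rfl) (cast_two_pow_le ?_) (by positivity)
                  (by positivity)
                push_cast; linarith)
            refine this.trans (mul_le_mul_of_nonneg_left (P2_le ?_) (by positivity))
            have := mul_le_mul_of_nonneg_left (hsub j) (show (0 : ℝ) ≤ 32 * v by positivity)
            nlinarith only [this, hj2r, hvr, mul_le_mul_of_nonneg_left hj3r (show (0 : ℝ) ≤ v by positivity)]
          · -- digit range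
            have hi3 : 49 * c < i := by
              nlinarith only [hJ2, hj1, Nat.mul_le_mul_left (20 * v) (show J + 1 ≤ j by omega)]
            obtain ⟨s, hs⟩ : ∃ s, s = i / (50 * c) := ⟨_, rfl⟩
            have hs1 : 50 * c * s ≤ i := by rw [hs]; exact Nat.mul_div_le _ _
            have hs2 : i < 50 * c * (s + 1) := by rw [hs]; exact Nat.lt_mul_div_succ _ (by omega)
            have hs3 : s < 8 := Nat.lt_of_mul_lt_mul_left (a := 50 * c) (by omega)
            have hs1r : 50 * (c : ℝ) * s ≤ i := by exact_mod_cast hs1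
            have hs2r : (i : ℝ) < 50 * c * (s + 1) := by exact_mod_cast hs2
            have hi3r : 49 * (c : ℝ) < i := by exact_mod_cast hi3
            refine (hdig s hs3 _ Nat.one_le_two_pow ((two_pow_sq i).trans ?_)).trans (hK1 _ ?_)
            · exact mul_le_mul_of_nonneg_left (P2_le (by linarith)) (by norm_num)
            · rcases Nat.eq_zero_or_pos s with rfl | hs0
              · push_cast; linarith
              · have : (1 : ℝ) ≤ s := by exact_mod_cast hs0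
                nlinarith only [hs1r, hcr, mul_le_mul_of_nonneg_left this (show (0 : ℝ) ≤ c by positivity)]
      · have e1 : P2 (-(((10 * u : ℕ) : ℝ) / 100)) = (P2 (u / 10))⁻¹ := by
          rw [P2_inv]; congr 1; push_cast; ring
        rw [e1, ← div_eq_mul_inv, div_le_iff₀ (P2_pos _)]
        have e2 : (v : ℝ) ≤ 11 * u := by exact_mod_cast hv11
        have e3 : (18 : ℝ) ≤ u := by exact_mod_cast hu18
        nlinarith only [e2, e3, h10'])
    (by
      have e1 := hdig 7 (by norm_num) (2 ^ (399 * c)) Nat.one_le_two_pow (by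
        have e2 := cast_two_pow_le (n := 399 * c) le_rfl
        refine (pow_le_pow_left₀ (by positivity) e2 2).trans ?_
        rw [P2_pow]
        have e3 : P2 (((399 * c : ℕ) : ℝ) * (2 : ℕ)) ≤ P2 (100 * c * ((7 : ℕ) + 1)) := by
          apply P2_le; push_cast; linarith
        have := P2_pos (100 * c * ((7 : ℕ) + 1))
        linarith)
      rw [Finset.filter_true_of_mem (s := adm L (2 ^ (399 * c)))
        (fun Q hQ => (Finset.mem_Icc.1 (Finset.mem_filter.1 hQ).1).2)] at e1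
      refine e1.trans ?_
      have e2 : ((2 ^ (200 * c) : ℕ) : ℝ) = P2 (200 * c) := by
        push_cast; rw [← P2_nat]; push_cast; rfl
      have e3 : P2 7 = 128 := by
        have := P2_nat 7; push_cast at this; rw [this]; norm_num
      have e4 : P2 7 * P2 (23 * c * ((7 : ℕ) + 1)) ≤ P2 (200 * c) := by
        rw [← P2_add]; apply P2_le; push_cast; linarith
      have := P2_pos (23 * c * ((7 : ℕ) + 1))
      rw [e2]; rw [e3] at e4
      generalize P2 (23 * c * ((7 : ℕ) + 1)) = X at this e4 ⊢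
      linarith only [this, e4])
  obtain ⟨x, hx, x', hx', hdvd⟩ := exists_S hΦ hΦ0 (show 0 < c₀ + L * t by omega) ht
    ((B * (Λ * W₁ * (1 + W₂ * (B / L + 1 + t))) : ℕ) : ℤ)
  have := final_rep (a := a) hB (show 1 ≤ Λ * W₁ * (1 + W₂ * (B / L + 1 + t)) from
      Nat.mul_pos (Nat.mul_pos hΛ1 hW₁pos) (by omega))
    ⟨1 + W₂ * (B / L + 1 + t), by ring⟩ (by rw [hPB t, hA]; ring) (SD_add hx hx') hdvd
  exact this.mono (by omega)

end Crest.Agent.Egy
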