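import Crest.Agent.Egy.Chain

set_option autoImplicit false

namespace Crest.Agent.Egy

open Crest.Agent.UF

/-- sums of exactly `K` divisors of `D` -/
def SD (D K : ℕ) : Set ℤ :=
  {n | ∃ l : Multiset ℕ, l.card = K ∧ (∀ d ∈ l, d ∣ D) ∧ n = (l.sum : ℕ)}

lemma SD_zero (D : ℕ) : (0 : ℤ) ∈ SD D 0 := ⟨0, by simp, by simp, by simp⟩

lemma SD_add {D K K' : ℕ} {a a' : ℤ} (h : a ∈ SD D K) (h' : a' ∈ SD D K') :
    a + a' ∈ SD D (K + K') := by
  obtain ⟨l, h1, h2, rfl⟩ := h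
  obtain ⟨l', h1', h2', rfl⟩ := h'
  refine ⟨l + l', by simp [h1, h1'], ?_, by simp⟩
  intro d hd
  rcases Multiset.mem_add.1 hd with h | h
  · exact h2 d h
  · exact h2' d h

lemma SD_one {D d : ℕ} (h : d ∣ D) : (d : ℤ) ∈ SD D 1 := ⟨{d}, by simp, by simpa using h, by simp⟩

lemma digits {F : ℝ → ℂ} {Λ Y B k Z : ℕ} {m : ℕ → ℕ} {M : ℝ} (hF : F ∈ TP (Dv Λ Y))
    (hF0 : F 0 = 1) (hF1 : ∀ θ, ‖F θ‖ ≤ 1) (hM : JJ (fun θ => ‖F θ‖ ^ (2 * k)) ≤ M)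
    (hm0 : m 0 = 1) (hmB : ∀ l < 8, m l ∣ B) (hB : 1 ≤ B) (hZ : 1 + k * Y ≤ Z)
    (hm : ∀ l < 7, Z * m l ≤ m (l + 1)) :
    ∃ G : ℕ → ℝ → ℂ, G 8 ∈ TP (SD (B * Λ) (8 * k)) ∧ G 8 0 = 1 ∧
      (∀ θ, ‖G 8 θ‖ ^ 2 ≤ ‖F θ‖ ^ (2 * k)) ∧ (∀ θ, ‖G 8 θ‖ ≤ 1) ∧
      ∀ s < 8, G (s + 1) ∈ TP (Set.Icc 0 ((Z * m s : ℕ) : ℤ)) ∧
        JJ (fun θ => ‖G (s + 1) θ‖ ^ 2) ≤ M ^ (s + 1) ∧ ∀ θ, ‖G 8 θ‖ ≤ ‖G (s + 1) θ‖ := by
  set G : ℕ → ℝ → ℂ := fun s => ∏ l ∈ Finset.range s, (fun θ => F (m l * θ)) ^ k with hG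
  have hGs : ∀ s, G (s + 1) = G s * (fun θ => F (m s * θ)) ^ k := fun s =>
    Finset.prod_range_succ _ _
  have hmpos : ∀ l < 8, 0 < m l := fun l hl => Nat.pos_of_dvd_of_pos (hmB l hl) hB
  have h1 : ∀ s ≤ 8, G s ∈ TP (SD (B * Λ) (s * k)) := by
    intro s hs
    induction s with
    | zero => simpa [hG] using TP_one (SD_zero _)
    | succ s ih =>
      rw [hGs, add_mul, one_mul]
      refine TP_mul (fun a ha a' ha' => SD_add ha ha') (ih (by omega)) ?_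
      refine TP_pow (A := SD (B * Λ) 1) (fun j => SD (B * Λ) j) (SD_zero _)
        (fun j a ha a' ha' => SD_add ha ha') (TP_dil _ ?_ hF) k
      rintro _ ⟨d, rfl, hd, -⟩
      have := SD_one (Nat.mul_dvd_mul (hmB s (by omega)) hd)
      push_cast at this; exact this
  have h2 : ∀ s θ, ‖G (s + 1) θ‖ ≤ ‖G s θ‖ := by
    intro s θ
    rw [hGs, Pi.mul_apply, norm_mul, Pi.pow_apply, norm_pow]
    exact mul_le_of_le_one_right (norm_nonneg _) (pow_le_one₀ (norm_nonneg _) (hF1 _))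
  have h2' : ∀ θ, Antitone (fun s => ‖G s θ‖) := fun θ => antitone_nat_of_succ_le (fun s => h2 s θ)
  have hM0 : 0 ≤ M := le_trans (JJ_nonneg (fun θ => by positivity)) hM
  have h3 : ∀ s < 8, G s ∈ TP (Set.Ico 0 (m s : ℤ)) ∧ JJ (fun θ => ‖G s θ‖ ^ 2) ≤ M ^ s →
      G (s + 1) ∈ TP (Set.Ico 0 ((Z * m s : ℕ) : ℤ)) ∧
        JJ (fun θ => ‖G (s + 1) θ‖ ^ 2) ≤ M ^ (s + 1) := by
    rintro s hs ⟨e1, e2⟩
    constructor
    · rw [hGs]
      have e3 : (fun θ => F (m s * θ)) ^ k ∈ TP (Set.Icc 0 ((k * (Y * m s) : ℕ) : ℤ)) := by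
        refine TP_pow (A := Set.Icc 0 ((Y * m s : ℕ) : ℤ))
          (fun j => Set.Icc 0 ((j * (Y * m s) : ℕ) : ℤ)) (by simp) ?_ (TP_dil _ ?_ hF) k
        · intro j a ha a' ha'
          simp only [Set.mem_Icc] at ha ha' ⊢
          push_cast at ha ha' ⊢
          constructor <;> linarith [ha.1, ha.2, ha'.1, ha'.2]
        · rintro _ ⟨d, rfl, -, hd⟩
          refine ⟨by positivity, ?_⟩
          have : m s * d ≤ Y * m s := by rw [mul_comm]; exact Nat.mul_le_mul_right _ hd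
          exact_mod_cast this
      refine TP_mul ?_ e1 e3
      intro a ha a' ha'
      have e4 : (((1 + k * Y) * m s : ℕ) : ℤ) ≤ (Z * m s : ℕ) := by
        exact_mod_cast Nat.mul_le_mul_right _ hZ
      simp only [Set.mem_Icc, Set.mem_Ico] at ha ha' ⊢
      push_cast at ha ha' e4 ⊢
      constructor <;> linarith [ha.1, ha.2, ha'.1, ha'.2]
    · have e3 : (fun θ => ‖G (s + 1) θ‖ ^ 2) =
          fun θ => ‖G s θ‖ ^ 2 * ‖F (m s * θ)‖ ^ (2 * k) := by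
        funext θ
        rw [hGs, Pi.mul_apply, norm_mul, Pi.pow_apply, norm_pow, mul_pow, ← pow_mul, mul_comm k 2]
      rw [e3, JJ_mul_dil (A := Set.Ioo (-(m s : ℤ)) (m s)) (φ := fun θ => ‖G s θ‖ ^ 2)
        (ψ := fun θ => ‖F θ‖ ^ (2 * k)) (fun a ha => abs_lt.2 ha) (normSq_mem (by
          intro a ha a' ha'
          exact ⟨by linarith [ha.1, ha'.2], by linarith [ha.2, ha'.1]⟩) e1)
        (normPow_mem (TP_mono (Dv_sub _ _) hF) k) (hmpos s hs).ne', pow_succ]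
      exact mul_le_mul e2 hM (JJ_nonneg (fun θ => by positivity)) (by positivity)
  have h4 : ∀ s < 8, G s ∈ TP (Set.Ico 0 (m s : ℤ)) ∧ JJ (fun θ => ‖G s θ‖ ^ 2) ≤ M ^ s := by
    intro s hs
    induction s with
    | zero =>
      constructor
      · simpa [hG] using TP_one (by simp [hm0])
      · simp [hG, JJ_const]
    | succ s ih =>
      obtain ⟨e1, e2⟩ := h3 s (by omega) (ih (by omega))
      refine ⟨TP_mono (Set.Ico_subset_Ico_right ?_) e1, e2⟩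
      exact_mod_cast hm s (by omega)
  refine ⟨G, h1 8 le_rfl, ?_, fun θ => ?_, fun θ => ?_, fun s hs => ?_⟩
  · simp [hG, hF0]
  · have := h2' θ (show 1 ≤ 8 by norm_num)
    simp only at this
    refine (pow_le_pow_left₀ (norm_nonneg _) this 2).trans (le_of_eq ?_)
    simp [hG, hm0, ← pow_mul, mul_comm]
  · have := h2' θ (show 0 ≤ 8 by norm_num)
    simpa [hG] using this
  · obtain ⟨e1, e2⟩ := h3 s hs (h4 s hs)
    exact ⟨TP_mono Set.Ico_subset_Icc_self e1, e2, fun θ => h2' θ (by omega)⟩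

lemma avg_set {A : Set ℤ} (D : Finset ℤ) (hD : ↑D ⊆ A) (hne : 0 < D.card) :
    ∃ g ∈ TP A, g 0 = 1 ∧ (∀ θ, ‖g θ‖ ≤ 1) ∧ JJ (fun θ => ‖g θ‖ ^ 2) = (D.card : ℝ)⁻¹ := by
  have hc : (D.card : ℝ) ≠ 0 := by exact_mod_cast hne.ne'
  have hc' : (D.card : ℂ) ≠ 0 := by exact_mod_cast hne.ne'
  refine ⟨∑ n ∈ D, (D.card : ℂ)⁻¹ • ch n, sum_mem_TP hD (fun _ => (D.card : ℂ)⁻¹), ?_, ?_, ?_⟩
  · simp [ch, e_zero, hc']
  · intro θ
    rw [Finset.sum_apply]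
    refine (norm_sum_le _ _).trans (le_of_eq ?_)
    simp [norm_ch, hc]
  · rw [parseval D (fun _ => (D.card : ℂ)⁻¹)]
    simp only [norm_inv, Complex.norm_natCast, Finset.sum_const, nsmul_eq_mul]
    field_simp

lemma smooth {w j x : ℕ} (hx : 1 ≤ x) (h : (x + 1) * j ≤ Nat.primeCounting w) :
    ∃ g ∈ TP (Dv (primorial w) (w ^ j)), g 0 = 1 ∧ (∀ θ, ‖g θ‖ ≤ 1) ∧
      JJ (fun θ => ‖g θ‖ ^ 2) ≤ ((x : ℝ) ^ j)⁻¹ := by
  set PR := (Finset.range (w + 1)).filter Nat.Prime with hPR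
  have hcard : ((PR.powersetCard j).image (fun T => ((∏ p ∈ T, p : ℕ) : ℤ))).card =
      (Nat.primeCounting w).choose j := by
    rw [Finset.card_image_of_injOn, Finset.card_powersetCard, card_primesLE]
    intro T hT T' hT' he
    have hp : ∀ T ∈ PR.powersetCard j, ∀ p ∈ T, p.Prime := by
      intro T hT p hp
      exact (Finset.mem_filter.1 ((Finset.mem_powersetCard.1 hT).1 hp)).2
    have he' : ∏ p ∈ T, p = ∏ p ∈ T', p := Int.natCast_inj.1 he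
    rw [← Nat.primeFactors_prod (hp T hT), he', Nat.primeFactors_prod (hp T' hT')]
  have hch : (x : ℝ) ^ j ≤ (Nat.primeCounting w).choose j := by
    refine le_trans ?_ (Nat.pow_le_choose j (Nat.primeCounting w))
    rw [le_div_iff₀ (by positivity)]
    have h1 : x * j ≤ Nat.primeCounting w + 1 - j := by
      rw [add_mul] at h; omega
    have h2 : x ^ j * j.factorial ≤ (Nat.primeCounting w + 1 - j) ^ j :=
      calc x ^ j * j.factorial ≤ x ^ j * j ^ j := Nat.mul_le_mul_left _ (Nat.factorial_le_pow j)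
        _ = (x * j) ^ j := by rw [mul_pow]
        _ ≤ _ := Nat.pow_le_pow_left h1 j
    exact_mod_cast h2
  have hxpos : (0 : ℝ) < (x : ℝ) ^ j := by positivity
  obtain ⟨g, hg, hg0, hg1, hg2⟩ := avg_set (A := Dv (primorial w) (w ^ j))
    ((PR.powersetCard j).image (fun T => ((∏ p ∈ T, p : ℕ) : ℤ))) (by
      intro n hn
      obtain ⟨T, hT, rfl⟩ := Finset.mem_image.1 (Finset.mem_coe.1 hn)
      obtain ⟨hT1, hT2⟩ := Finset.mem_powersetCard.1 hT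
      refine ⟨_, rfl, Finset.prod_dvd_prod_of_subset _ _ _ hT1, ?_⟩
      rw [← hT2]
      refine Finset.prod_le_pow_card _ _ _ (fun p hp => ?_)
      have := Finset.mem_range.1 (Finset.mem_filter.1 (hT1 hp)).1
      omega) (by
      rw [hcard]
      exact_mod_cast hxpos.trans_le hch)
  refine ⟨g, hg, hg0, hg1, ?_⟩
  rw [hg2, hcard]
  exact inv_anti₀ hxpos hch

lemma prod_smooth {D : ℕ} (g : ℕ → ℝ → ℂ) (n : ℕ) (hg : ∀ j < n, g j ∈ TP (SD D 1))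
    (h0 : ∀ j < n, g j 0 = 1) (h1 : ∀ j < n, ∀ θ, ‖g j θ‖ ≤ 1) :
    ∃ G ∈ TP (SD D n), G 0 = 1 ∧ (∀ θ, ‖G θ‖ ≤ 1) ∧ ∀ j < n, ∀ θ, ‖G θ‖ ≤ ‖g j θ‖ := by
  induction n with
  | zero => exact ⟨1, TP_one (SD_zero _), rfl, by simp, by simp⟩
  | succ n ih =>
    obtain ⟨G, hG, hG0, hG1, hG2⟩ := ih (fun j hj => hg j (by omega)) (fun j hj => h0 j (by omega))
      (fun j hj => h1 j (by omega))
    refine ⟨G * g n, TP_mul (fun a ha a' ha' => SD_add ha ha') hG (hg n (by omega)), ?_, ?_, ?_⟩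
    · simp [hG0, h0 n (by omega)]
    · intro θ
      rw [Pi.mul_apply, norm_mul]
      exact mul_le_one₀ (hG1 θ) (norm_nonneg _) (h1 n (by omega) θ)
    · intro j hj θ
      rw [Pi.mul_apply, norm_mul]
      rcases Nat.lt_or_ge j n with h | h
      · exact (mul_le_of_le_one_right (norm_nonneg _) (h1 n (by omega) θ)).trans (hG2 j h θ)
      · obtain rfl : j = n := by omega
        exact mul_le_of_le_one_left (norm_nonneg _) (hG1 θ)

end Crest.Agent.Egy
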