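import Crest.Agent.Egy.TP

set_option autoImplicit false

namespace Crest.Agent.Egy

open Crest.Agent.UF

lemma pw_avg_aux {u w : ℝ} (hw : 0 ≤ w) (huw : w ≤ u) (k : ℕ) :
    ((u + w) / 2) ^ (2 * k) ≤ (25 / 36) ^ k * (u ^ (2 * k) + w ^ (2 * k)) +
      (25 / 24) ^ k * (u * w) ^ k := by
  have hu : 0 ≤ u := hw.trans huw
  rcases le_total (3 * w) (2 * u) with h | h
  · have h1 : ((u + w) / 2) ^ (2 * k) ≤ (25 / 36) ^ k * u ^ (2 * k) := by
      rw [pow_mul, pow_mul, ← mul_pow]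
      apply pow_le_pow_left₀ (by positivity)
      nlinarith
    have h2 : (0 : ℝ) ≤ (25 / 36) ^ k * w ^ (2 * k) := by positivity
    have h3 : (0 : ℝ) ≤ (25 / 24) ^ k * (u * w) ^ k := by positivity
    rw [mul_add]; linarith
  · have h1 : ((u + w) / 2) ^ (2 * k) ≤ (25 / 24) ^ k * (u * w) ^ k := by
      rw [pow_mul, ← mul_pow]
      apply pow_le_pow_left₀ (by positivity)
      nlinarith [mul_nonneg (sub_nonneg.2 h) (show 0 ≤ 3 * u - 2 * w by linarith)]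
    have h2 : (0 : ℝ) ≤ (25 / 36) ^ k * (u ^ (2 * k) + w ^ (2 * k)) := by positivity
    linarith

lemma pw_avg {u w : ℝ} (hu : 0 ≤ u) (hw : 0 ≤ w) (k : ℕ) :
    ((u + w) / 2) ^ (2 * k) ≤ (25 / 36) ^ k * (u ^ (2 * k) + w ^ (2 * k)) +
      (25 / 24) ^ k * (u * w) ^ k := by
  rcases le_total w u with h | h
  · exact pw_avg_aux hw h k
  · have := pw_avg_aux hu h k
    rw [add_comm w u, add_comm (w ^ (2 * k)), mul_comm w u] at this
    exact this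

lemma cross_count {p p' : ℕ} (hp : Nat.Coprime p' p) (hp' : p' ≠ 0) (s : Finset ℤ) (n : ℤ) (x : ℝ)
    (hx : 0 ≤ x) :
    ∑ n' ∈ s, (if (p : ℤ) * n + p' * n' = 0 then x else 0) ≤ if (p' : ℤ) ∣ n then x else 0 := by
  rw [← Finset.sum_filter]
  split_ifs with h
  · have : (s.filter (fun n' => (p : ℤ) * n + p' * n' = 0)).card ≤ 1 := by
      rw [Finset.card_le_one]
      intro a ha b hb
      rw [Finset.mem_filter] at ha hb
      have h1 : (p' : ℤ) * a = p' * b := by linarith [ha.2, hb.2]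
      exact mul_left_cancel₀ (by exact_mod_cast hp') h1
    rw [Finset.sum_const, nsmul_eq_mul]
    have h2 : ((s.filter (fun n' => (p : ℤ) * n + p' * n' = 0)).card : ℝ) ≤ 1 := by
      exact_mod_cast this
    nlinarith
  · rw [Finset.filter_eq_empty_iff.2, Finset.sum_empty]
    intro n' _ h1
    apply h
    have h2 : (p' : ℤ) ∣ p * n := ⟨-n', by linarith⟩
    exact (Nat.isCoprime_iff_coprime.2 hp).dvd_of_dvd_mul_left h2

lemma cross_bound {p p' : ℕ} (hp : p.Prime) (hp' : p'.Prime) (hne : p ≠ p') (s : Finset ℤ)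
    (r : ℤ → ℂ) :
    ‖II ((fun θ => (∑ n ∈ s, r n • ch n) (p * θ)) * fun θ => (∑ n ∈ s, r n • ch n) (p' * θ))‖ ≤
      ((∑ n ∈ s, if (p : ℤ) ∣ n then ‖r n‖ ^ 2 else 0) +
        ∑ n ∈ s, if (p' : ℤ) ∣ n then ‖r n‖ ^ 2 else 0) / 2 := by
  have h1 : ((fun θ => (∑ n ∈ s, r n • ch n) (p * θ)) * fun θ => (∑ n ∈ s, r n • ch n) (p' * θ)) =
      ∑ n ∈ s, ∑ n' ∈ s, (r n * r n') • ch (p * n + p' * n') := by
    funext θ
    simp only [Finset.sum_apply, Pi.smul_apply, smul_eq_mul, Pi.mul_apply]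
    rw [Finset.sum_mul_sum]
    refine Finset.sum_congr rfl (fun n _ => Finset.sum_congr rfl (fun n' _ => ?_))
    simp only [ch]
    rw [show ((p * n + p' * n' : ℤ) : ℝ) * θ = n * (p * θ) + n' * (p' * θ) by push_cast; ring, e_add]
    ring
  rw [h1, II_sum _ _ (fun n _ => TP_cont (A := Set.univ) (Submodule.sum_mem _ (fun n' _ =>
    Submodule.smul_mem _ _ (ch_mem trivial))))]
  have h2 : ∀ n ∈ s, ‖II (∑ n' ∈ s, (r n * r n') • ch (p * n + p' * n'))‖ ≤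
      ∑ n' ∈ s, ((if (p : ℤ) * n + p' * n' = 0 then ‖r n‖ ^ 2 else 0) +
        (if (p' : ℤ) * n' + p * n = 0 then ‖r n'‖ ^ 2 else 0)) / 2 := by
    intro n _
    rw [II_sum _ _ (fun n' _ => (continuous_ch _).const_smul _)]
    refine (norm_sum_le _ _).trans (Finset.sum_le_sum (fun n' _ => ?_))
    rw [II_smul, II_ch, add_comm ((p' : ℤ) * n')]
    split_ifs
    · rw [mul_one, norm_mul]; nlinarith [sq_nonneg (‖r n‖ - ‖r n'‖)]
    · simp
  refine (norm_sum_le _ _).trans ((Finset.sum_le_sum h2).trans ?_)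
  simp only [← Finset.sum_div, Finset.sum_add_distrib]
  have hc : Nat.Coprime p p' := (Nat.coprime_primes hp hp').2 hne
  have h3 := Finset.sum_le_sum (s := s)
    (fun n _ => cross_count hc.symm hp'.ne_zero s n (‖r n‖ ^ 2) (by positivity))
  have h4 := Finset.sum_le_sum (s := s)
    (fun n _ => cross_count hc hp.ne_zero s n (‖r n‖ ^ 2) (by positivity))
  rw [Finset.sum_comm] at h4
  linarith

lemma two_pow_card_primeFactors_le {n : ℕ} (hn : n ≠ 0) : 2 ^ n.primeFactors.card ≤ n := by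
  calc 2 ^ n.primeFactors.card ≤ ∏ p ∈ n.primeFactors, p :=
        Finset.pow_card_le_prod _ _ _ (fun p hp => (Nat.prime_of_mem_primeFactors hp).two_le)
    _ ≤ n := Nat.le_of_dvd (Nat.pos_of_ne_zero hn) (Nat.prod_primeFactors_dvd n)

lemma card_primeFactors_le {n b : ℕ} (hn : n ≠ 0) (h : n ≤ 2 ^ b) : n.primeFactors.card ≤ b :=
  (Nat.pow_le_pow_iff_right (by norm_num)).1 ((two_pow_card_primeFactors_le hn).trans h)

lemma normPow_mem {N : ℕ} {f : ℝ → ℂ} (hf : f ∈ TP (Set.Icc 0 N)) (k : ℕ) :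
    (fun θ => ((‖f θ‖ ^ (2 * k) : ℝ) : ℂ)) ∈ TP (Set.Icc (-((k * N : ℕ) : ℤ)) (k * N : ℕ)) := by
  have h1 := normSq_mem (A' := Set.Icc (-(N : ℤ)) N) (by
    intro a ha a' ha'
    exact ⟨by linarith [ha.1, ha'.2], by linarith [ha.2, ha'.1]⟩) hf
  have h2 := TP_pow (fun k : ℕ => Set.Icc (-((k * N : ℕ) : ℤ)) (k * N : ℕ)) (by simp) (by
    intro k a ha a' ha'
    simp only [Set.mem_Icc] at ha ha' ⊢
    push_cast at ha ⊢
    constructor <;> linarith [ha.1, ha.2, ha'.1, ha'.2]) h1 k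
  convert h2 using 1
  funext θ
  simp only [Pi.pow_apply]
  rw [pow_mul]; push_cast; rfl

theorem step {N k b X : ℕ} {f : ℝ → ℂ} (hf : f ∈ TP (Set.Icc 0 N)) (pool : Finset ℕ)
    (hpool : ∀ p ∈ pool, p.Prime) (hb : k * N ≤ 2 ^ b) {ρ τ r₀ : ℝ} (hρ : 0 < ρ) (hτ : 0 < τ)
    (hX : (b : ℝ) ≤ ρ * X) (hcard : X + 2 ≤ pool.card)
    (hM : JJ (fun θ => ‖f θ‖ ^ (4 * k)) ≤ τ) (hr : JJ (fun θ => ‖f θ‖ ^ (2 * k)) ≤ r₀) :
    ∃ p ∈ pool, ∃ p' ∈ pool, p ≠ p' ∧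
      JJ (fun θ => ‖(f (p * θ) + f (p' * θ)) / 2‖ ^ (4 * k)) ≤
        2 * (25 / 36) ^ (2 * k) * τ + (25 / 24) ^ (2 * k) * (r₀ ^ 2 + ρ * τ) := by
  have hfc := TP_cont hf
  have hU := normPow_mem hf k
  set s := Finset.Icc (-((k * N : ℕ) : ℤ)) (k * N : ℕ) with hs
  obtain ⟨r, hr'⟩ := TP_coef (s := s) (by simp [hs]) hU
  have hpar : ∑ n ∈ s, ‖r n‖ ^ 2 ≤ τ := by
    rw [← parseval, ← hr']
    refine le_trans (le_of_eq ?_) hM
    congr 1; funext θ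
    rw [Complex.norm_real, Real.norm_eq_abs, sq_abs, ← pow_mul]; congr 1; ring
  have hr0 : ‖r 0‖ ≤ r₀ := by
    have h1 : II (fun θ => ((‖f θ‖ ^ (2 * k) : ℝ) : ℂ)) = r 0 := by
      rw [hr', II_sum _ _ (fun n' _ => (continuous_ch _).const_smul _)]
      simp only [II_smul, II_ch, mul_ite, mul_one, mul_zero]
      rw [Finset.sum_ite_eq', if_pos (by simp [hs]; positivity)]
    rw [← h1, II_ofReal, Complex.norm_real, Real.norm_eq_abs,
      abs_of_nonneg (JJ_nonneg (fun θ => by positivity))]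
    exact hr
  set E : ℕ → ℝ := fun p => ∑ n ∈ s, if (p : ℤ) ∣ n ∧ n ≠ 0 then ‖r n‖ ^ 2 else 0 with hE
  have hE0 : ∀ p, 0 ≤ E p := fun p => Finset.sum_nonneg (fun n _ => by split_ifs <;> positivity)
  have hEsum : ∑ p ∈ pool, E p ≤ b * τ := by
    simp only [hE]
    rw [Finset.sum_comm]
    refine le_trans ?_ (mul_le_mul_of_nonneg_left hpar (by positivity))
    rw [Finset.mul_sum]
    refine Finset.sum_le_sum (fun n hn => ?_)
    rw [← Finset.sum_filter, Finset.sum_const, nsmul_eq_mul]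
    by_cases hn0 : n = 0
    · simp [hn0]; positivity
    have h1 : (pool.filter (fun p : ℕ => (p : ℤ) ∣ n ∧ n ≠ 0)).card ≤ b := by
      refine le_trans (Finset.card_le_card ?_) (card_primeFactors_le (n := n.natAbs) (by omega) ?_)
      · intro p hp
        rw [Finset.mem_filter] at hp
        exact Nat.mem_primeFactors.2 ⟨hpool p hp.1, Int.natCast_dvd.1 hp.2.1, by omega⟩
      · rw [hs, Finset.mem_Icc] at hn
        omega
    have h2 : ((pool.filter (fun p : ℕ => (p : ℤ) ∣ n ∧ n ≠ 0)).card : ℝ) ≤ b := by exact_mod_cast h1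
    gcongr
  have hbad : (pool.filter (fun p => ¬ E p ≤ ρ * τ)).card ≤ X := by
    have h1 : ((pool.filter (fun p => ¬ E p ≤ ρ * τ)).card : ℝ) * (ρ * τ) ≤ ∑ p ∈ pool, E p := by
      rw [← nsmul_eq_mul, ← Finset.sum_const]
      refine le_trans (Finset.sum_le_sum (fun p hp => (not_le.1 (Finset.mem_filter.1 hp).2).le)) ?_
      exact Finset.sum_le_sum_of_subset_of_nonneg (Finset.filter_subset _ _) (fun p _ _ => hE0 p)
    have h2 : ((pool.filter (fun p => ¬ E p ≤ ρ * τ)).card : ℝ) * (ρ * τ) ≤ X * (ρ * τ) := by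
      nlinarith
    exact_mod_cast le_of_mul_le_mul_right h2 (by positivity)
  have hgood : 1 < (pool.filter (fun p => E p ≤ ρ * τ)).card := by
    have := Finset.card_filter_add_card_filter_not (s := pool) (fun p => E p ≤ ρ * τ)
    omega
  obtain ⟨p, hp, p', hp', hne⟩ := Finset.one_lt_card.1 hgood
  rw [Finset.mem_filter] at hp hp'
  refine ⟨p, hp.1, p', hp'.1, hne, ?_⟩
  have hE' : ∀ p : ℕ, (∑ n ∈ s, if (p : ℤ) ∣ n then ‖r n‖ ^ 2 else 0) ≤ r₀ ^ 2 + E p := by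
    intro p
    have h1 : ∀ n ∈ s, (if (p : ℤ) ∣ n then ‖r n‖ ^ 2 else 0) =
        (if n = 0 then ‖r n‖ ^ 2 else 0) + if (p : ℤ) ∣ n ∧ n ≠ 0 then ‖r n‖ ^ 2 else 0 := by
      intro n _
      by_cases h : n = 0
      · simp [h]
      · simp [h]
    rw [Finset.sum_congr rfl h1, Finset.sum_add_distrib, Finset.sum_ite_eq', if_pos (by simp [hs]; positivity)]
    have : ‖r 0‖ ^ 2 ≤ r₀ ^ 2 := by gcongr
    linarith
  have hcross : JJ (fun θ => (‖f (p * θ)‖ * ‖f (p' * θ)‖) ^ (2 * k)) ≤ r₀ ^ 2 + ρ * τ := by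
    have h1 := cross_bound (hpool p hp.1) (hpool p' hp'.1) hne s r
    rw [← hr'] at h1
    have h2 : ((fun θ : ℝ => ((‖f (p * θ)‖ ^ (2 * k) : ℝ) : ℂ)) *
        fun θ : ℝ => ((‖f (p' * θ)‖ ^ (2 * k) : ℝ) : ℂ)) =
        fun θ : ℝ => (((‖f (p * θ)‖ * ‖f (p' * θ)‖) ^ (2 * k) : ℝ) : ℂ) := by
      funext θ; simp only [Pi.mul_apply]; rw [mul_pow, Complex.ofReal_mul]
    rw [h2, II_ofReal, Complex.norm_real, Real.norm_eq_abs] at h1
    have h3 := hE' p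
    have h4 := hE' p'
    have h5 := le_abs_self (JJ (fun θ => (‖f (p * θ)‖ * ‖f (p' * θ)‖) ^ (2 * k)))
    linarith [hp.2, hp'.2]
  have hdil : ∀ q : ℕ, q ≠ 0 → JJ (fun θ => ‖f (q * θ)‖ ^ (2 * (2 * k))) ≤ τ := by
    intro q hq
    rw [JJ_dil hq (φ := fun θ => ‖f θ‖ ^ (2 * (2 * k))) (normPow_mem hf (2 * k)),
      show 2 * (2 * k) = 4 * k by ring]
    exact hM
  have hpw : ∀ θ : ℝ, ‖(f (p * θ) + f (p' * θ)) / 2‖ ^ (4 * k) ≤
      (25 / 36) ^ (2 * k) * (‖f (p * θ)‖ ^ (2 * (2 * k)) + ‖f (p' * θ)‖ ^ (2 * (2 * k))) +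
      (25 / 24) ^ (2 * k) * (‖f (p * θ)‖ * ‖f (p' * θ)‖) ^ (2 * k) := by
    intro θ
    refine le_trans ?_ (pw_avg (norm_nonneg _) (norm_nonneg _) (2 * k))
    rw [show 2 * (2 * k) = 4 * k by ring]
    apply pow_le_pow_left₀ (norm_nonneg _)
    rw [norm_div, Complex.norm_ofNat]
    gcongr
    exact norm_add_le _ _
  refine (JJ_mono (by fun_prop) (by fun_prop) hpw).trans ?_
  rw [JJ_add (by fun_prop) (by fun_prop), JJ_const_mul, JJ_const_mul,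
    JJ_add (by fun_prop) (by fun_prop)]
  have h1 := hdil p (hpool p hp.1).ne_zero
  have h2 := hdil p' (hpool p' hp'.1).ne_zero
  have h3 : (25 / 36 : ℝ) ^ (2 * k) * (JJ (fun θ => ‖f (p * θ)‖ ^ (2 * (2 * k))) +
      JJ (fun θ => ‖f (p' * θ)‖ ^ (2 * (2 * k)))) ≤ (25 / 36) ^ (2 * k) * (τ + τ) := by gcongr
  have h4 : (25 / 24 : ℝ) ^ (2 * k) * JJ (fun θ => (‖f (p * θ)‖ * ‖f (p' * θ)‖) ^ (2 * k)) ≤
      (25 / 24) ^ (2 * k) * (r₀ ^ 2 + ρ * τ) := by gcongr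
  linarith

lemma pw_interp {x s : ℝ} (hx : 0 ≤ x) (hs : 0 < s) (k : ℕ) :
    x ^ (k + 2) ≤ s ^ k * x ^ 2 + x ^ (2 * (k + 2)) / s ^ (k + 2) := by
  rcases le_total x s with h | h
  · have h1 : x ^ (k + 2) ≤ s ^ k * x ^ 2 := by rw [pow_add]; gcongr
    have h2 : 0 ≤ x ^ (2 * (k + 2)) / s ^ (k + 2) := by positivity
    linarith
  · have h1 : x ^ (k + 2) ≤ x ^ (2 * (k + 2)) / s ^ (k + 2) := by
      rw [le_div_iff₀ (by positivity), two_mul, pow_add x (k + 2) (k + 2)]; gcongr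
    have h2 : 0 ≤ s ^ k * x ^ 2 := by positivity
    linarith

lemma JJ_interp {f : ℝ → ℂ} (hf : Continuous f) {s : ℝ} (hs : 0 < s) (k : ℕ) :
    JJ (fun θ => ‖f θ‖ ^ (k + 2)) ≤ s ^ k * JJ (fun θ => ‖f θ‖ ^ 2) +
      (s ^ (k + 2))⁻¹ * JJ (fun θ => ‖f θ‖ ^ (2 * (k + 2))) := by
  rw [← JJ_const_mul, ← JJ_const_mul, ← JJ_add (by fun_prop) (by fun_prop)]
  refine JJ_mono (by fun_prop) (by fun_prop) (fun θ => ?_)
  have := pw_interp (norm_nonneg (f θ)) hs k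
  rw [div_eq_inv_mul] at this
  exact this

lemma JJ_avg_sq {A : Set ℤ} {f : ℝ → ℂ} (hf : f ∈ TP A) {p p' : ℕ} (hp : p ≠ 0) (hp' : p' ≠ 0)
    (h : ∀ a ∈ A, ∀ a' ∈ A, (p : ℤ) * a ≠ p' * a') :
    JJ (fun θ => ‖(f (p * θ) + f (p' * θ)) / 2‖ ^ 2) = JJ (fun θ => ‖f θ‖ ^ 2) / 2 := by
  have hfc := TP_cont hf
  have h1 := normSq_mem (A' := Set.univ) (by simp) hf
  have h2 := JJ_dil hp (φ := fun θ => ‖f θ‖ ^ 2) h1
  have h3 := JJ_dil hp' (φ := fun θ => ‖f θ‖ ^ 2) h1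
  have h4 : (fun θ => f (p * θ)) ∈ TP {x | ∃ a ∈ A, x = p * a} := TP_dil p (by
    intro a ha; exact ⟨a, ha, rfl⟩) hf
  have h5 : (fun θ => f (p' * θ)) ∈ TP {x | ∃ a ∈ A, x = p' * a} := TP_dil p' (by
    intro a ha; exact ⟨a, ha, rfl⟩) hf
  have h6 := TP_conj (A' := {x | ∃ a ∈ A, x = -(p' * a)}) (by
    rintro _ ⟨a, ha, rfl⟩; exact ⟨a, ha, rfl⟩) h5
  have h7 := TP_mul (A'' := {x | x ≠ 0}) (by
    rintro _ ⟨a, ha, rfl⟩ _ ⟨a', ha', rfl⟩
    have := h a ha a' ha'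
    intro h0; apply this; linarith) h4 h6
  have h8 := II_eq_zero (by simp) h7
  have h9 : JJ (fun θ => (f (p * θ) * (starRingEnd ℂ) (f (p' * θ))).re) = 0 := by
    have hc : Continuous (fun θ : ℝ => f (p * θ) * (starRingEnd ℂ) (f (p' * θ))) := by fun_prop
    have := intervalIntegral.intervalIntegral_re (μ := MeasureTheory.volume) (hc.intervalIntegrable 0 1)
    unfold JJ
    simp only [RCLike.re_to_complex] at this
    rw [this]
    unfold II at h8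
    simp only [Pi.mul_apply] at h8
    rw [h8]; simp
  have h10 : (fun θ : ℝ => ‖(f (p * θ) + f (p' * θ)) / 2‖ ^ 2) = fun θ : ℝ =>
      (1 / 4) * (‖f (p * θ)‖ ^ 2 + ‖f (p' * θ)‖ ^ 2) +
        (1 / 2) * (f (p * θ) * (starRingEnd ℂ) (f (p' * θ))).re := by
    funext θ
    rw [norm_div, div_pow, Complex.norm_ofNat, ← Complex.normSq_eq_norm_sq,
      ← Complex.normSq_eq_norm_sq, ← Complex.normSq_eq_norm_sq, Complex.normSq_add]
    ring
  rw [h10, JJ_add (by fun_prop) (by fun_prop), JJ_const_mul, JJ_const_mul,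
    JJ_add (by fun_prop) (by fun_prop), h2, h3, h9]
  ring

end Crest.Agent.Egy
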