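import Crest.Agent.UF.Defs

set_option autoImplicit false

namespace Crest.Agent.Egy

open Crest.Agent.UF

local notation "conj" => starRingEnd ℂ

/-- the character `θ ↦ e (n θ)` -/
noncomputable def ch (n : ℤ) : ℝ → ℂ := fun θ => e (n * θ)

/-- trigonometric polynomials with spectrum in `A` -/
noncomputable def TP (A : Set ℤ) : Submodule ℂ (ℝ → ℂ) := Submodule.span ℂ (ch '' A)

lemma ch_mem {A : Set ℤ} {n : ℤ} (h : n ∈ A) : ch n ∈ TP A :=
  Submodule.subset_span ⟨n, h, rfl⟩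

lemma TP_mono {A A' : Set ℤ} (h : A ⊆ A') {F : ℝ → ℂ} (hF : F ∈ TP A) : F ∈ TP A' :=
  Submodule.span_mono (Set.image_mono h) hF

lemma ch_add (n n' : ℤ) : ch (n + n') = ch n * ch n' := by
  funext θ; simp only [ch, Pi.mul_apply]; rw [← e_add]; congr 1; push_cast; ring

lemma ch_zero : ch 0 = 1 := by funext θ; simp [ch, e_zero]

lemma norm_ch (n : ℤ) (θ : ℝ) : ‖ch n θ‖ = 1 := norm_e _

lemma continuous_ch (n : ℤ) : Continuous (ch n) := continuous_e.comp (by fun_prop)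

lemma TP_ind {A : Set ℤ} {p : (ℝ → ℂ) → Prop} (h0 : p 0) (hch : ∀ n ∈ A, p (ch n))
    (hadd : ∀ F G, F ∈ TP A → G ∈ TP A → p F → p G → p (F + G))
    (hsmul : ∀ (c : ℂ) F, F ∈ TP A → p F → p (c • F)) {F : ℝ → ℂ} (hF : F ∈ TP A) : p F := by
  induction hF using Submodule.span_induction with
  | mem x hx => obtain ⟨n, hn, rfl⟩ := hx; exact hch n hn
  | zero => exact h0
  | add x y hx hy h1 h2 => exact hadd x y hx hy h1 h2
  | smul c x hx h1 => exact hsmul c x hx h1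

lemma TP_cont {A : Set ℤ} {F : ℝ → ℂ} (hF : F ∈ TP A) : Continuous F := by
  refine TP_ind (p := fun F => Continuous F) continuous_const (fun n _ => continuous_ch n)
    (fun F G _ _ h1 h2 => h1.add h2) (fun c F _ h => h.const_smul c) hF

lemma TP_per {A : Set ℤ} {F : ℝ → ℂ} (hF : F ∈ TP A) (θ : ℝ) (k : ℤ) : F (θ + k) = F θ := by
  refine TP_ind (p := fun F => F (θ + k) = F θ) rfl (fun n _ => ?_)
    (fun F G _ _ h1 h2 => by simp [h1, h2]) (fun c F _ h => by simp [h]) hF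
  simp only [ch]
  rw [← e_add_int (n * θ) (n * k)]; congr 1; push_cast; ring

lemma TP_mul {A A' A'' : Set ℤ} (h : ∀ a ∈ A, ∀ a' ∈ A', a + a' ∈ A'') {F G : ℝ → ℂ}
    (hF : F ∈ TP A) (hG : G ∈ TP A') : F * G ∈ TP A'' := by
  refine TP_ind (p := fun F => F * G ∈ TP A'') (by simp) (fun n hn => ?_)
    (fun F F' _ _ h1 h2 => by rw [add_mul]; exact add_mem h1 h2)
    (fun c F _ h => by rw [smul_mul_assoc]; exact Submodule.smul_mem _ _ h) hF
  refine TP_ind (p := fun G => ch n * G ∈ TP A'') (by simp) (fun n' hn' => ?_)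
    (fun F F' _ _ h1 h2 => by rw [mul_add]; exact add_mem h1 h2)
    (fun c F _ h => by rw [mul_smul_comm]; exact Submodule.smul_mem _ _ h) hG
  rw [← ch_add]; exact ch_mem (h n hn n' hn')

lemma TP_conj {A A' : Set ℤ} (h : ∀ a ∈ A, -a ∈ A') {F : ℝ → ℂ}
    (hF : F ∈ TP A) : (fun θ => conj (F θ)) ∈ TP A' := by
  refine TP_ind (p := fun F => (fun θ => conj (F θ)) ∈ TP A') ?_ (fun n hn => ?_)
    (fun F F' _ _ h1 h2 => ?_) (fun c F _ h => ?_) hF
  · simp only [Pi.zero_apply, map_zero]; exact (TP A').zero_mem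
  · have : (fun θ => conj (ch n θ)) = ch (-n) := by
      funext θ; simp only [ch]; rw [← e_neg]; congr 1; push_cast; ring
    rw [this]; exact ch_mem (h n hn)
  · simp only [Pi.add_apply, map_add]; exact add_mem h1 h2
  · simp only [Pi.smul_apply, smul_eq_mul, map_mul]
    exact Submodule.smul_mem _ (conj c) h

lemma TP_dil {A A' : Set ℤ} (p : ℕ) (h : ∀ a ∈ A, (p : ℤ) * a ∈ A') {F : ℝ → ℂ}
    (hF : F ∈ TP A) : (fun θ => F (p * θ)) ∈ TP A' := by
  refine TP_ind (p := fun F => (fun θ => F (p * θ)) ∈ TP A') (TP A').zero_mem (fun n hn => ?_)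
    (fun F F' _ _ h1 h2 => add_mem h1 h2) (fun c F _ h => Submodule.smul_mem _ c h) hF
  have : (fun θ => ch n (p * θ)) = ch (p * n) := by
    funext θ; simp only [ch]; congr 1; push_cast; ring
  rw [this]; exact ch_mem (h n hn)

lemma TP_one {A : Set ℤ} (h : 0 ∈ A) : (1 : ℝ → ℂ) ∈ TP A := by
  rw [← ch_zero]; exact ch_mem h

lemma TP_pow {A : Set ℤ} (B : ℕ → Set ℤ) (h0 : 0 ∈ B 0)
    (h : ∀ k, ∀ a ∈ B k, ∀ a' ∈ A, a + a' ∈ B (k + 1)) {F : ℝ → ℂ}
    (hF : F ∈ TP A) (k : ℕ) : F ^ k ∈ TP (B k) := by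
  induction k with
  | zero => rw [pow_zero]; exact TP_one h0
  | succ k ih => rw [pow_succ]; exact TP_mul (h k) ih hF

/-- integral over a period -/
noncomputable def II (F : ℝ → ℂ) : ℂ := ∫ θ in (0 : ℝ)..1, F θ

lemma II_ch (n : ℤ) : II (ch n) = if n = 0 then 1 else 0 := by
  split_ifs with h
  · subst h; simp [II, ch_zero]
  · have hn : (n : ℂ) ≠ 0 := by exact_mod_cast h
    have hc : (2 * Real.pi * Complex.I * n : ℂ) ≠ 0 := by
      simp [Real.pi_ne_zero, h]
    have hd : ∀ x : ℝ, HasDerivAt (fun x : ℝ => e (n * x) / (2 * Real.pi * Complex.I * n))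
        (ch n x) x := by
      intro x
      have h1 : HasDerivAt (fun x : ℝ => (n : ℝ) * x) n x := by
        simpa using (hasDerivAt_id x).const_mul (n : ℝ)
      have h2 := ((hasDerivAt_e (n * x)).scomp x h1).div_const (2 * Real.pi * Complex.I * n)
      refine h2.congr_deriv ?_
      simp only [ch, Complex.real_smul]
      field_simp
      push_cast
      ring
    unfold II
    rw [intervalIntegral.integral_eq_sub_of_hasDerivAt (fun x _ => hd x)
      ((continuous_ch n).intervalIntegrable _ _)]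
    simp [e_int, e_zero]

lemma II_add {F G : ℝ → ℂ} (hF : Continuous F) (hG : Continuous G) :
    II (F + G) = II F + II G :=
  intervalIntegral.integral_add (hF.intervalIntegrable _ _) (hG.intervalIntegrable _ _)

lemma II_smul (c : ℂ) (F : ℝ → ℂ) : II (c • F) = c * II F := by
  unfold II
  simp only [Pi.smul_apply, smul_eq_mul]
  exact intervalIntegral.integral_const_mul c F

lemma II_zero : II 0 = 0 := by simp [II]

lemma II_sum {ι : Type*} (s : Finset ι) (F : ι → ℝ → ℂ) (hF : ∀ i ∈ s, Continuous (F i)) :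
    II (∑ i ∈ s, F i) = ∑ i ∈ s, II (F i) := by
  unfold II
  simp only [Finset.sum_apply]
  exact intervalIntegral.integral_finsetSum (fun i hi => (hF i hi).intervalIntegrable _ _)

lemma II_eq_zero {A : Set ℤ} (h : 0 ∉ A) {F : ℝ → ℂ} (hF : F ∈ TP A) : II F = 0 := by
  refine TP_ind (p := fun F => II F = 0) II_zero (fun n hn => ?_)
    (fun F G hF hG h1 h2 => by rw [II_add (TP_cont hF) (TP_cont hG), h1, h2, add_zero])
    (fun c F _ h => by rw [II_smul, h, mul_zero]) hF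
  rw [II_ch, if_neg]; rintro rfl; exact h hn

lemma II_mul_dil {A A' : Set ℤ} {m : ℕ} (h : ∀ a ∈ A, |a| < m) {U V : ℝ → ℂ}
    (hU : U ∈ TP A) (hV : V ∈ TP A') (hm : m ≠ 0) :
    II (U * fun θ => V (m * θ)) = II U * II V := by
  have hc : ∀ {V : ℝ → ℂ}, V ∈ TP A' → Continuous (fun θ : ℝ => V (m * θ)) :=
    fun hV => (TP_cont hV).comp (by fun_prop)
  refine TP_ind (p := fun U => II (U * fun θ => V (m * θ)) = II U * II V) (by simp [II_zero])
    (fun n hn => ?_) (fun F G hF hG h1 h2 => ?_) (fun c F _ h => ?_) hU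
  · refine TP_ind (p := fun V => II (ch n * fun θ => V (m * θ)) = II (ch n) * II V) ?_
      (fun n' hn' => ?_) (fun F G hF hG h1 h2 => ?_) (fun c F _ h => ?_) hV
    · have : (ch n * fun θ => (0 : ℝ → ℂ) (m * θ)) = 0 := by funext θ; simp
      rw [this]; simp [II_zero]
    · have : (fun θ => ch n' (m * θ)) = ch (m * n') := by
        funext θ; simp only [ch]; congr 1; push_cast; ring
      rw [this, ← ch_add, II_ch, II_ch, II_ch]
      have h1 := h n hn
      by_cases h2 : n' = 0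
      · simp [h2]
      · have h3 : n + m * n' ≠ 0 := by
          intro h3
          have h4 : n = -(m * n') := by linarith
          rw [h4, abs_neg, abs_mul, Nat.abs_cast] at h1
          have h5 : 1 ≤ |n'| := Int.one_le_abs h2
          have h6 : (0 : ℤ) ≤ m := by positivity
          nlinarith
        simp [h2, h3]
    · have : (ch n * fun θ => (F + G) (m * θ)) =
          (ch n * fun θ => F (m * θ)) + (ch n * fun θ => G (m * θ)) := by
        funext θ; simp [mul_add]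
      rw [this, II_add ((continuous_ch n).mul (hc hF)) ((continuous_ch n).mul (hc hG)), h1, h2,
        II_add (TP_cont hF) (TP_cont hG), mul_add]
    · have : (ch n * fun θ => (c • F) (m * θ)) = c • (ch n * fun θ => F (m * θ)) := by
        funext θ; simp; ring
      rw [this, II_smul, II_smul, h]; ring
  · rw [add_mul, II_add ((TP_cont hF).mul (hc hV)) ((TP_cont hG).mul (hc hV)), h1, h2,
      II_add (TP_cont hF) (TP_cont hG), add_mul]
  · rw [smul_mul_assoc, II_smul, II_smul, h, mul_assoc]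

lemma II_dil {A : Set ℤ} {m : ℕ} (hm : m ≠ 0) {V : ℝ → ℂ} (hV : V ∈ TP A) :
    II (fun θ => V (m * θ)) = II V := by
  have := II_mul_dil (A := {0}) (m := m) (by
    intro a ha; rw [Set.mem_singleton_iff.1 ha]; simpa using Nat.pos_of_ne_zero hm)
    (TP_one rfl) hV hm
  rw [one_mul, ← ch_zero, II_ch] at this
  simpa using this

lemma TP_coef {A : Set ℤ} {s : Finset ℤ} (h : A ⊆ s) {F : ℝ → ℂ} (hF : F ∈ TP A) :
    ∃ r : ℤ → ℂ, F = ∑ n ∈ s, r n • ch n := by
  obtain ⟨r, hr⟩ := (Submodule.mem_span_image_finset_iff_exists_fun' ℂ).1 (TP_mono h hF)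
  exact ⟨r, hr.symm⟩

lemma sum_mem_TP {A : Set ℤ} {s : Finset ℤ} (h : ↑s ⊆ A) (r : ℤ → ℂ) :
    ∑ n ∈ s, r n • ch n ∈ TP A :=
  Submodule.sum_mem _ (fun n hn => Submodule.smul_mem _ _ (ch_mem (h hn)))

/-- real integral over a period -/
noncomputable def JJ (φ : ℝ → ℝ) : ℝ := ∫ θ in (0 : ℝ)..1, φ θ

lemma II_ofReal (φ : ℝ → ℝ) : II (fun θ => (φ θ : ℂ)) = (JJ φ : ℂ) :=
  intervalIntegral.integral_ofReal

lemma JJ_mono {φ ψ : ℝ → ℝ} (hφ : Continuous φ) (hψ : Continuous ψ) (h : ∀ θ, φ θ ≤ ψ θ) :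
    JJ φ ≤ JJ ψ :=
  intervalIntegral.integral_mono_on zero_le_one (hφ.intervalIntegrable _ _)
    (hψ.intervalIntegrable _ _) (fun θ _ => h θ)

lemma JJ_nonneg {φ : ℝ → ℝ} (h : ∀ θ, 0 ≤ φ θ) : 0 ≤ JJ φ :=
  intervalIntegral.integral_nonneg zero_le_one (fun θ _ => h θ)

lemma JJ_add {φ ψ : ℝ → ℝ} (hφ : Continuous φ) (hψ : Continuous ψ) :
    JJ (fun θ => φ θ + ψ θ) = JJ φ + JJ ψ :=
  intervalIntegral.integral_add (hφ.intervalIntegrable _ _) (hψ.intervalIntegrable _ _)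

lemma JJ_const_mul (c : ℝ) (φ : ℝ → ℝ) : JJ (fun θ => c * φ θ) = c * JJ φ :=
  intervalIntegral.integral_const_mul c φ

lemma JJ_const (c : ℝ) : JJ (fun _ => c) = c := by simp [JJ]

lemma normSq_ofReal (z : ℂ) : ((‖z‖ ^ 2 : ℝ) : ℂ) = z * conj z := by
  rw [Complex.mul_conj, Complex.normSq_eq_norm_sq]

lemma parseval (s : Finset ℤ) (r : ℤ → ℂ) :
    JJ (fun θ => ‖(∑ n ∈ s, r n • ch n) θ‖ ^ 2) = ∑ n ∈ s, ‖r n‖ ^ 2 := by
  apply Complex.ofReal_injective
  rw [← II_ofReal]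
  have : (fun θ => ((‖(∑ n ∈ s, r n • ch n) θ‖ ^ 2 : ℝ) : ℂ)) =
      ∑ n ∈ s, ∑ n' ∈ s, (r n * conj (r n')) • ch (n - n') := by
    funext θ
    rw [normSq_ofReal]
    simp only [Finset.sum_apply, Pi.smul_apply, smul_eq_mul, map_sum, map_mul]
    rw [Finset.sum_mul_sum]
    refine Finset.sum_congr rfl (fun n _ => Finset.sum_congr rfl (fun n' _ => ?_))
    simp only [ch]
    rw [← e_neg, show ((n - n' : ℤ) : ℝ) * θ = n * θ + -(n' * θ) by push_cast; ring, e_add]
    ring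
  rw [this, II_sum _ _ (fun n _ => TP_cont (A := Set.univ) (Submodule.sum_mem _ (fun n' _ =>
    Submodule.smul_mem _ _ (ch_mem trivial))))]
  push_cast
  refine Finset.sum_congr rfl (fun n hn => ?_)
  rw [II_sum _ _ (fun n' _ => (continuous_ch _).const_smul _)]
  simp only [II_smul, II_ch, sub_eq_zero, mul_ite, mul_one, mul_zero]
  rw [Finset.sum_ite_eq, if_pos hn, ← normSq_ofReal]
  push_cast; rfl

lemma normSq_mem {A A' : Set ℤ} (h : ∀ a ∈ A, ∀ a' ∈ A, a - a' ∈ A') {F : ℝ → ℂ}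
    (hF : F ∈ TP A) : (fun θ => ((‖F θ‖ ^ 2 : ℝ) : ℂ)) ∈ TP A' := by
  have h1 : (fun θ => conj (F θ)) ∈ TP {a | -a ∈ A} := TP_conj (by intro a ha; simpa using ha) hF
  have h2 := TP_mul (A'' := A') (by
    intro a ha a' ha'
    have := h a ha (-a') ha'
    simpa using this) hF h1
  convert h2 using 1
  funext θ; rw [normSq_ofReal]; rfl

lemma JJ_dil {A : Set ℤ} {m : ℕ} (hm : m ≠ 0) {φ : ℝ → ℝ}
    (hφ : (fun θ => (φ θ : ℂ)) ∈ TP A) : JJ (fun θ => φ (m * θ)) = JJ φ := by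
  apply Complex.ofReal_injective
  rw [← II_ofReal, ← II_ofReal]
  exact II_dil hm hφ

lemma JJ_mul_dil {A A' : Set ℤ} {m : ℕ} (h : ∀ a ∈ A, |a| < m) {φ ψ : ℝ → ℝ}
    (hφ : (fun θ => (φ θ : ℂ)) ∈ TP A) (hψ : (fun θ => (ψ θ : ℂ)) ∈ TP A') (hm : m ≠ 0) :
    JJ (fun θ => φ θ * ψ (m * θ)) = JJ φ * JJ ψ := by
  apply Complex.ofReal_injective
  rw [Complex.ofReal_mul, ← II_ofReal, ← II_ofReal, ← II_ofReal, ← II_mul_dil h hφ hψ hm]
  congr 1
  funext θ; simp

end Crest.Agent.Egy
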